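import Vale.Agent.P218US.Jets
import Vale.Agent.P218UG.Graph
import Vale.Agent.P218UF.FL

/-! Smooth convergence implies convergence of geometric integrals. -/

open MeasureTheory Set Filter Topology Metric
open scoped ENNReal NNReal RealInnerProductSpace ContDiff

namespace Vale.Agent.P218US

open Vale.Agent.P218UA Vale.Agent.P218UG
open Vale.Agent.P218.H63 (lap hessSq hess_symm)

section jets

variable {ι X F : Type} [NormedAddCommGroup X] [NormedSpace ℝ X] [NormedAddCommGroup F]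
  [NormedSpace ℝ F] {l : Filter ι} {f : ι → X → F} {g : X → F} {K : Set X}

lemma tu_zero (h : TendstoUniformlyOn (fun i => iteratedFDeriv ℝ 0 (f i)) (iteratedFDeriv ℝ 0 g)
    l K) : TendstoUniformlyOn f g l K :=
  (continuousMultilinearCurryFin0 ℝ X F).isometry.uniformContinuous.comp_tendstoUniformlyOn h

lemma tu_succ {k : ℕ} (h : TendstoUniformlyOn (fun i => iteratedFDeriv ℝ (k + 1) (f i))
    (iteratedFDeriv ℝ (k + 1) g) l K) : TendstoUniformlyOn
      (fun i => iteratedFDeriv ℝ k (fderiv ℝ (f i))) (iteratedFDeriv ℝ k (fderiv ℝ g)) l K := by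
  have e : ∀ u : X → F, iteratedFDeriv ℝ k (fderiv ℝ u) =
      continuousMultilinearCurryRightEquiv' ℝ k X F ∘ iteratedFDeriv ℝ (k + 1) u :=
    fun u => funext fun x => by simp [iteratedFDeriv_succ_eq_comp_right]
  simp only [e]
  exact (continuousMultilinearCurryRightEquiv' ℝ k X
    F).isometry.uniformContinuous.comp_tendstoUniformlyOn h

omit [NormedAddCommGroup X] [NormedSpace ℝ X] in
lemma tu_prod {Y Z : Type*} [PseudoMetricSpace Y] [PseudoMetricSpace Z] {a : ι → X → Y}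
    {a₀ : X → Y} {b : ι → X → Z} {b₀ : X → Z} (ha : TendstoUniformlyOn a a₀ l K)
    (hb : TendstoUniformlyOn b b₀ l K) :
    TendstoUniformlyOn (fun i x => (a i x, b i x)) (fun x => (a₀ x, b₀ x)) l K := by
  rw [Metric.tendstoUniformlyOn_iff] at ha hb ⊢
  intro ε hε
  filter_upwards [ha ε hε, hb ε hε] with i h1 h2 x hx
  exact max_lt (h1 x hx) (h2 x hx)

end jets

/-- the two-jet of a function on the plane -/
noncomputable def jet (u : E2 → ℝ) (ξ : E2) : (E2 × ℝ) × E2 × (E2 →L[ℝ] E2) :=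
  ((ξ, u ξ), gradient u ξ, fderiv ℝ (gradient u) ξ)

lemma tu_jet {ι : Type} {l : Filter ι} {v : ι → E2 → ℝ} {u : E2 → ℝ} {K : Set E2}
    (h : ∀ k : ℕ, TendstoUniformlyOn (fun i => iteratedFDeriv ℝ k (v i)) (iteratedFDeriv ℝ k u)
      l K) : TendstoUniformlyOn (fun i => jet (v i)) (jet u) l K := by
  set T : StrongDual ℝ E2 ≃ₗᵢ[ℝ] E2 := (InnerProductSpace.toDual ℝ E2).symm
  have e : ∀ u : E2 → ℝ, fderiv ℝ (gradient u) = (ContinuousLinearMap.compL ℝ E2 _ E2
      (T : StrongDual ℝ E2 →L[ℝ] E2)) ∘ fderiv ℝ (fderiv ℝ u) := fun u => funext fun ξ =>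
    T.comp_fderiv (f := fderiv ℝ u)
  refine tu_prod (tu_prod (fun _ hr => Eventually.of_forall fun _ _ _ => refl_mem_uniformity hr)
    (tu_zero (h 0))) (tu_prod (T.isometry.uniformContinuous.comp_tendstoUniformlyOn
      (tu_zero (tu_succ (h 1)))) ?_)
  simp only [e]
  exact (ContinuousLinearMap.uniformContinuous _).comp_tendstoUniformlyOn
    (tu_zero (tu_succ (tu_succ (h 2))))

lemma contAt_jet {u : E2 → ℝ} {ξ : E2} (h : ContDiffAt ℝ 2 u ξ) : ContinuousAt (jet u) ξ :=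
  (continuousAt_id.prodMk h.continuousAt).prodMk
    ((contDiffAt_grad' (m := 1) le_rfl h).continuousAt.prodMk
      ((contDiffAt_grad' (m := 1) le_rfl h).continuousAt_fderiv (by norm_num)))

variable {Q : E3 ≃ₗᵢ[ℝ] E3} {p : E3}

lemma IsGraph.mono {M : Set E3} {R R' h : ℝ} {u : E2 → ℝ} (hG : IsGraph M Q p R h u)
    (hR : R' ≤ R) : IsGraph M Q p R' h u := fun ξ hξ => hG ξ (hξ.trans_le hR)

lemma IsGraph.ev {w : E3 → ℝ} {R h : ℝ} {u : E2 → ℝ} (hG : IsGraph {x | w x = 0} Q p R h u)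
    {ξ : E2} (hξ : ξ ∈ ball (0 : E2) R) : ∀ᶠ ζ in 𝓝 ξ, w (pt Q p ζ (u ζ)) = 0 :=
  eventually_of_mem (isOpen_ball.mem_nhds hξ) fun ζ hζ =>
    ((hG ζ (mem_ball_zero_iff.1 hζ)).2 _ (hG ζ (mem_ball_zero_iff.1 hζ)).1).2 rfl

lemma locFin {w : E3 → ℝ} (hw : IsSurf w) : IsLocallyFiniteMeasure (ar w) :=
  P218UM.locFin_ar (hw.smooth.of_le (by norm_cast)) fun _ hx => surf_unit hw hx

/-- the area formula for Bochner integrals -/
lemma integral_graph {w : E3 → ℝ} (hw : IsSurf w) {R h : ℝ} {u : E2 → ℝ}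
    (hG : IsGraph {x | w x = 0} Q p R h u) (hu : ∀ ξ ∈ closedBall (0 : E2) R, ContDiffAt ℝ 2 u ξ)
    {g : E3 → ℝ} (hg : Continuous g) (hc : HasCompactSupport g)
    (hs : ∀ x, g x ≠ 0 → x ∈ {x | ∃ ξ s, ‖ξ‖ < R ∧ |s| < h ∧ x = pt Q p ξ s}) :
    ∫ x, g x ∂ar w = ∫ ξ in ball (0 : E2) R, g (pt Q p ξ (u ξ)) * √(1 + ‖gradient u ξ‖ ^ 2) := by
  have := locFin hw
  have hu1 : ContDiffOn ℝ 1 u (ball 0 R) := fun ξ hξ =>
    ((hu ξ (ball_subset_closedBall hξ)).of_le (by norm_num)).contDiffWithinAt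
  have hi : IntegrableOn (fun ξ => g (pt Q p ξ (u ξ)) * √(1 + ‖gradient u ξ‖ ^ 2)) (ball 0 R) := by
    refine (ContinuousOn.integrableOn_compact (isCompact_closedBall 0 R) fun ξ hξ =>
      ContinuousAt.continuousWithinAt ?_).mono_set ball_subset_closedBall
    have a := contAt_jet (hu ξ hξ)
    exact ((hg.comp (contDiff_pt (k := 0)).continuous).continuousAt.comp a.fst).mul
      (continuousAt_const.add (a.snd.fst.norm.pow 2)).sqrt
  have key : ∀ g' : E3 → ℝ, (∀ x, g x = 0 → g' x = 0) → ∫⁻ x, ENNReal.ofReal (g' x) ∂ar w =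
      ∫⁻ ξ in ball (0 : E2) R, ENNReal.ofReal (g' (pt Q p ξ (u ξ)) * √(1 + ‖gradient u ξ‖ ^ 2)) :=
    fun g' h' => by
      simp only [ENNReal.ofReal_mul' (Real.sqrt_nonneg _)]
      rw [← graph_area hG hu1 fun x => ENNReal.ofReal (g' x),
        setLIntegral_eq_of_support_subset fun x hx => hs x fun h0 => hx (by simp [h' x h0])]
  rw [integral_eq_lintegral_pos_part_sub_lintegral_neg_part
    (hg.integrable_of_hasCompactSupport hc),
    integral_eq_lintegral_pos_part_sub_lintegral_neg_part hi, key g fun _ h => h,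
    key (fun x => -g x) fun _ h => by rw [h, neg_zero]]
  simp only [neg_mul]

/-- geometric quantities of order two -/
structure Geo (q : (E3 → ℝ) → E3 → ℝ) : Prop where
  cont : ∀ w, IsSurf w → Continuous (q w)
  loc : ∀ Q, ∃ G : E2 × (E2 →L[ℝ] E2) → ℝ, Continuous G ∧ ∀ w, IsSurf w → ∀ p u ξ,
    ContDiffAt ℝ 2 u ξ → (∀ᶠ ζ in 𝓝 ξ, w (pt Q p ζ (u ζ)) = 0) →
      q w (pt Q p ξ (u ξ)) = G (jet u ξ).2

lemma geo_one : Geo fun _ _ => 1 :=
  ⟨fun _ _ => continuous_const, fun _ => ⟨fun _ => 1, continuous_const, fun _ _ _ _ _ _ _ => rfl⟩⟩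

/-- the graphical mean curvature operator as a function of the jet -/
noncomputable def gj (z : E2 × (E2 →L[ℝ] E2)) : ℝ := trL E2 z.2 - ⟪z.2 z.1, z.1⟫ / (1 + ‖z.1‖ ^ 2)

lemma continuous_gj : Continuous gj :=
  ((trL E2).continuous.comp continuous_snd).sub (Continuous.div (by fun_prop) (by fun_prop)
    fun z => by positivity)

lemma gmc_eq (u : E2 → ℝ) (ξ : E2) : gmc u ξ = gj (jet u ξ).2 := rfl

lemma continuous_lap {w : E3 → ℝ} (hw : IsSurf w) : Continuous (lap w) :=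
  (trL E3).continuous.comp ((P218UF.contDiff_grad (surf_cd2 hw)).continuous_fderiv one_ne_zero)

lemma geo_lap : Geo fun w x => lap w x ^ 2 := by
  refine ⟨fun w hw => (continuous_lap hw).pow 2, fun Q => ⟨fun z => gj z ^ 2 / (1 + ‖z.1‖ ^ 2),
    (continuous_gj.pow 2).div (by fun_prop) fun z => by positivity, fun w hw p u ξ hu h0 => ?_⟩⟩
  obtain ⟨σ, hσ, -, h, -⟩ := graph_geom hw hu h0
  rw [h, div_pow, Real.sq_sqrt (by positivity), gmc_eq]
  rcases hσ with rfl | rfl <;> simp [jet]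

/-- the horizontal part of the tangential projection -/
noncomputable def pr (Q : E3 ≃ₗᵢ[ℝ] E3) (g : E2) (e : E3) : E2 :=
  hor Q e + (⟪e, lin Q (-g, 1)⟫ / (1 + ‖g‖ ^ 2)) • g

lemma pr_spec (g : E2) (e : E3) : e = lin Q (pr Q g e, ⟪g, pr Q g e⟫) +
    (⟪e, lin Q (-g, 1)⟫ / (1 + ‖g‖ ^ 2)) • lin Q (-g, 1) := by
  obtain ⟨a, b, rfl⟩ : ∃ a b, e = lin Q (a, b) := ⟨_, _, (lin_hor Q e).symm⟩
  rw [← map_smul, ← map_add, pr, hor_lin, inner_lin]
  congr 1
  refine Prod.ext (by simp) ?_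
  simp only [inner_neg_right, inner_add_right, real_inner_smul_right, real_inner_self_eq_norm_sq,
    Prod.snd_add, Prod.smul_snd, smul_eq_mul, real_inner_comm a]
  field_simp
  ring

lemma geo_hess : Geo hessSq := by
  set b := stdOrthonormalBasis ℝ E3
  refine ⟨fun w hw => P218UF.continuous_hessSq' (surf_cd2 hw), fun Q =>
    ⟨fun z => ∑ i, ∑ j, ⟪z.2 (pr Q z.1 (b i)), pr Q z.1 (b j)⟫ ^ 2 / (1 + ‖z.1‖ ^ 2), ?_,
      fun w hw p u ξ hu h0 => ?_⟩⟩
  · have hp : ∀ e, Continuous fun z : E2 × (E2 →L[ℝ] E2) => pr Q z.1 e := fun e =>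
      continuous_const.add ((Continuous.div (f := fun z : E2 × (E2 →L[ℝ] E2) =>
        ⟪e, lin Q (-z.1, 1)⟫) (g := fun z => 1 + ‖z.1‖ ^ 2) (by fun_prop) (by fun_prop)
        fun z => by positivity).smul continuous_fst)
    exact continuous_finsetSum _ fun i _ => continuous_finsetSum _ fun j _ =>
      (((continuous_snd.clm_apply (hp _)).inner (hp _)).pow 2).div (by fun_prop)
        fun z => by positivity
  obtain ⟨σ, hσ, h1, -, h2⟩ := graph_geom hw hu h0
  set x := pt Q p ξ (u ξ)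
  set g := gradient u ξ
  have hW : 0 < √(1 + ‖g‖ ^ 2) := Real.sqrt_pos.2 (by positivity)
  have hσ0 : σ ≠ 0 := by rcases hσ with rfl | rfl <;> norm_num
  have h3 : ∀ v, ⟪hs w x v, lin Q (-g, 1)⟫ = 0 := fun v => by
    have := inner_hs_grad hw h0.self_of_nhds v
    rw [h1, real_inner_smul_right] at this
    exact (mul_eq_zero.1 this).resolve_left (div_ne_zero hσ0 hW.ne')
  have h4 : ∀ v, ⟪hs w x (lin Q (-g, 1)), v⟫ = 0 := fun v => by
    rw [hs, hess_symm (surf_cd2 hw), real_inner_comm]; exact h3 v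
  have h5 : ∀ e e', ⟪hs w x e, e'⟫ = -σ * ⟪fderiv ℝ (gradient u) ξ (pr Q g e), pr Q g e'⟫
      / √(1 + ‖g‖ ^ 2) := fun e e' => by
    rw [← h2]
    conv_lhs => rw [pr_spec (Q := Q) g e, pr_spec (Q := Q) g e']
    simp only [map_add, map_smul, inner_add_left, inner_add_right, real_inner_smul_left,
      real_inner_smul_right, h3, h4, mul_zero, add_zero]
  rw [hessSq, LinearMap.trace_eq_sum_inner _ b]
  refine Finset.sum_congr rfl fun i _ => ?_
  have h6 : ⟪b i, hs w x (hs w x (b i))⟫ = ‖hs w x (b i)‖ ^ 2 := by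
    rw [← real_inner_self_eq_norm_sq]; exact (hess_symm (surf_cd2 hw) x _ _).symm
  refine h6.trans ?_
  rw [← b.sum_sq_inner_left]
  refine Finset.sum_congr rfl fun j _ => ?_
  rw [h5, div_pow, Real.sq_sqrt (by positivity)]
  rcases hσ with rfl | rfl <;> simp [jet, g]

lemma int_zero {w g : E3 → ℝ} (h : ∀ x, w x = 0 → g x = 0) : ∫ x, g x ∂ar w = 0 :=
  setIntegral_eq_zero_of_forall_eq_zero h

/-- **Smooth convergence implies convergence of integrals.** -/
theorem conv {f : ℕ → E3 → ℝ} {W : E3 → ℝ} (hf : ∀ᶠ i in atTop, IsSurf (f i)) (hW : IsSurf W)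
    (hc : SmoothConv (fun i => {x | f i x = 0}) {x | W x = 0}) {q : (E3 → ℝ) → E3 → ℝ}
    (hq : Geo q) {φ : E3 → ℝ} (hφ : Continuous φ) (hφc : HasCompactSupport φ) :
    Tendsto (fun i => ∫ x, φ x * q (f i) x ∂ar (f i)) atTop (𝓝 (∫ x, φ x * q W x ∂ar W)) := by
  have hint : ∀ w, IsSurf w → ∀ g : E3 → ℝ, Continuous g → HasCompactSupport g →
      Integrable (fun x => g x * q w x) (ar w) := fun w hw g a b => by
    have := locFin hw
    exact (a.mul (hq.cont w hw)).integrable_of_hasCompactSupport b.mul_right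
  refine (P218GA.of_local (P := fun g : E3 → ℝ => Continuous g ∧ HasCompactSupport g ∧
    Tendsto (fun i => ∫ x, g x * q (f i) x ∂ar (f i)) atTop (𝓝 (∫ x, g x * q W x ∂ar W)))
    ⟨continuous_const, HasCompactSupport.zero, by simp⟩ ?_ (fun p => ?_) hφ hφc).2.2
  · rintro g g' ⟨a1, a2, a3⟩ ⟨b1, b2, b3⟩
    refine ⟨a1.add b1, a2.add b2, ?_⟩
    simp only [add_mul]
    rw [integral_add (hint W hW g a1 a2) (hint W hW g' b1 b2)]
    exact (a3.add b3).congr' (hf.mono fun i hi =>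
      (integral_add (hint _ hi g a1 a2) (hint _ hi g' b1 b2)).symm)
  by_cases hp : W p = 0
  swap
  · obtain ⟨r, hr, h⟩ := hc.away p hp
    refine ⟨ball p r ∩ {x | W x ≠ 0}, inter_mem (ball_mem_nhds p hr)
      (hW.smooth.continuous.continuousAt.eventually_ne hp), fun g a b c => ⟨a, b, ?_⟩⟩
    have z : ∀ x, x ∉ ball p r ∩ {x | W x ≠ 0} → g x = 0 := fun x hx =>
      image_eq_zero_of_notMem_tsupport fun h => hx (c h)
    rw [int_zero fun x hx => by rw [z x fun h => h.2 hx, zero_mul]]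
    exact tendsto_const_nhds.congr' (h.mono fun i hi => (int_zero fun x hx => by
      rw [z x fun h => disjoint_left.1 hi h.1 hx, zero_mul]).symm)
  obtain ⟨Q, R, h, u, v, hR, hh, hG, hu, hv, ht⟩ := hc.near p hp
  obtain ⟨G, hGc, hGq⟩ := hq.loc Q
  have hsub : closedBall (0 : E2) (R / 2) ⊆ ball 0 R := closedBall_subset_ball (by linarith)
  refine ⟨_, (isOpen_cyl Q p (R / 2) h).mem_nhds ⟨0, 0, by simpa, by simpa, by
    rw [pt_eq, Prod.mk_zero_zero, map_zero, add_zero]⟩, fun g a b c => ⟨a, b, ?_⟩⟩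
  set F : (E2 × ℝ) × E2 × (E2 →L[ℝ] E2) → ℝ := fun z =>
    g (pt Q p z.1.1 z.1.2) * G z.2 * √(1 + ‖z.2.1‖ ^ 2) with hF
  have hFc : Continuous F := (((a.comp (contDiff_pt (k := 0)).continuous).comp
    continuous_fst).mul (hGc.comp continuous_snd)).mul (by fun_prop)
  have cd : ∀ u : E2 → ℝ, ContDiffOn ℝ ∞ u (ball 0 R) → ∀ ξ ∈ closedBall (0 : E2) (R / 2),
      ContDiffAt ℝ 2 u ξ := fun u hu ξ hξ =>
    (hu.contDiffAt (isOpen_ball.mem_nhds (hsub hξ))).of_le (by norm_cast)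
  have key : ∀ w, IsSurf w → ∀ u, IsGraph {x | w x = 0} Q p R h u → ContDiffOn ℝ ∞ u (ball 0 R) →
      ∫ x, g x * q w x ∂ar w = ∫ ξ in closedBall (0 : E2) (R / 2), F (jet u ξ) :=
    fun w hw u hG hu => by
      rw [integral_graph hw (IsGraph.mono hG (by linarith : R / 2 ≤ R)) (cd u hu)
        (g := fun x => g x * q w x) (a.mul (hq.cont w hw)) b.mul_right fun x hx => c (subset_tsupport _
          (left_ne_zero_of_mul hx)), ← setIntegral_congr_set (ae_eq_of_subset_of_measure_ge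
            ball_subset_closedBall (Measure.addHaar_closedBall_eq_addHaar_ball _ _ _).le
            measurableSet_ball.nullMeasurableSet measure_closedBall_lt_top.ne)]
      refine setIntegral_congr_fun measurableSet_ball fun ξ hξ => ?_
      have h1 := ball_subset_closedBall hξ
      simp only [hF]
      rw [hGq w hw p u ξ (cd u hu ξ h1) (IsGraph.ev hG (hsub h1))]
      rfl
  have hK := isCompact_closedBall (0 : E2) (R / 2)
  have hj : ∀ u : E2 → ℝ, ContDiffOn ℝ ∞ u (ball 0 R) →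
      ContinuousOn (jet u) (closedBall (0 : E2) (R / 2)) := fun u hu ξ hξ =>
    (contAt_jet (cd u hu ξ hξ)).continuousWithinAt
  have hT := tu_comp hK (tu_jet fun k => (ht k).mono hsub) (hj u hu) hFc
  rw [key W hW u hG hu]
  refine Tendsto.congr' ((hf.and hv).mono fun i hi => (key _ hi.1 _ hi.2.1 hi.2.2).symm) ?_
  obtain ⟨B, hB⟩ := hK.exists_bound_of_continuousOn (hFc.comp_continuousOn (hj u hu))
  refine tendsto_integral_filter_of_dominated_convergence (fun _ => B + 1)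
    (hv.mono fun i hi => (hFc.comp_continuousOn (hj _ hi.2)).aestronglyMeasurable
      measurableSet_closedBall) ?_ (integrableOn_const hK.measure_lt_top.ne)
    ((ae_restrict_mem measurableSet_closedBall).mono fun ξ hξ => hT.tendsto_at hξ)
  filter_upwards [Metric.tendstoUniformlyOn_iff.1 hT 1 one_pos] with i hi
  filter_upwards [ae_restrict_mem measurableSet_closedBall] with ξ hξ
  have c1 := hi ξ hξ
  have c2 : ‖F (jet u ξ)‖ ≤ B := hB ξ hξ
  rw [dist_eq_norm, norm_sub_rev] at c1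
  linarith [norm_sub_norm_le (F (jet (v i) ξ)) (F (jet u ξ))]

end Vale.Agent.P218US
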