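import Mathlib.Analysis.Calculus.UniformLimitsDeriv
import Mathlib.Analysis.Calculus.ContDiff.Basic
import Mathlib.Analysis.Calculus.ContDiff.Comp
import Mathlib.Analysis.Calculus.MeanValue
import Mathlib.Analysis.Normed.Module.FiniteDimension
import Mathlib.Topology.UniformSpace.HeineCantor

/-! Pointwise limits of functions with uniformly bounded derivatives of all orders. -/

open Set Filter Topology Metric
open scoped ContDiff Uniformity

namespace Vale.Agent.P218US

lemma tlu_of_lip {X Y : Type*} [PseudoMetricSpace X] [PseudoMetricSpace Y] {f : ℕ → X → Y}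
    {g : X → Y} {U : Set X} {C : ℝ}
    (hl : ∀ᶠ i in atTop, ∀ x ∈ U, ∀ y ∈ U, dist (f i x) (f i y) ≤ C * dist x y)
    (h : ∀ x ∈ U, Tendsto (fun i => f i x) atTop (𝓝 (g x))) :
    TendstoLocallyUniformlyOn f g atTop U := by
  have hg : ∀ x ∈ U, ∀ y ∈ U, dist (g x) (g y) ≤ C * dist x y := fun x hx y hy =>
    le_of_tendsto ((h x hx).dist (h y hy)) (hl.mono fun i hi => hi x hx y hy)
  refine Metric.tendstoLocallyUniformlyOn_iff.2 fun ε hε x hx => ?_
  have hc : 0 < |C| + 1 := by positivity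
  refine ⟨U ∩ ball x (ε / 3 / (|C| + 1)), inter_mem_nhdsWithin _ (ball_mem_nhds _ (by positivity)),
    ?_⟩
  filter_upwards [hl, Metric.tendsto_nhds.1 (h x hx) (ε / 3) (by positivity)] with i h1 h2 y hy
  have a1 : dist y x * (|C| + 1) < ε / 3 := (lt_div_iff₀ hc).1 hy.2
  have a2 := hg y hy.1 x hx
  have a3 := h1 y hy.1 x hx
  have a4 : C * dist y x ≤ |C| * dist y x := mul_le_mul_of_nonneg_right (le_abs_self C) dist_nonneg
  have a5 := dist_triangle4 (g y) (g x) (f i x) (f i y)
  rw [dist_comm (g x), dist_comm (f i x) (f i y)] at a5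
  nlinarith [dist_nonneg (x := y) (y := x)]

lemma tu_comp {ι X Y Z : Type*} [TopologicalSpace X] [UniformSpace Y] [UniformSpace Z]
    {l : Filter ι} {J : ι → X → Y} {J₀ : X → Y} {K : Set X} (hK : IsCompact K)
    (h : TendstoUniformlyOn J J₀ l K) (hc : ContinuousOn J₀ K) {F : Y → Z} (hF : Continuous F) :
    TendstoUniformlyOn (fun i x => F (J i x)) (fun x => F (J₀ x)) l K := fun _ hr =>
  (h _ ((hK.image_of_continuousOn hc).uniformContinuousAt_of_continuousAt F
    (fun _ _ => hF.continuousAt) hr)).mono fun _ hi x hx => hi x hx ⟨x, hx, rfl⟩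

variable {E : Type} [NormedAddCommGroup E] [NormedSpace ℝ E]

lemma interp {F : Type*} [NormedAddCommGroup F] [NormedSpace ℝ F] {h : E → F} {y : E} {τ ε C : ℝ}
    (hτ : 0 < τ) (hd : ∀ z ∈ closedBall y τ, DifferentiableAt ℝ h z)
    (hl : ∀ z ∈ closedBall y τ, ‖fderiv ℝ h z - fderiv ℝ h y‖ ≤ C * τ)
    (hb : ∀ z ∈ closedBall y τ, ‖h z‖ ≤ ε) : ‖fderiv ℝ h y‖ ≤ 2 * ε / τ + C * τ := by
  have h0 := mem_closedBall_self (x := y) hτ.le
  have hC : 0 ≤ C * τ := (norm_nonneg _).trans (hl y h0)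
  have hε : 0 ≤ ε := (norm_nonneg _).trans (hb y h0)
  refine ContinuousLinearMap.opNorm_le_of_unit_norm (by positivity) fun v hv => ?_
  have hz : y + τ • v ∈ closedBall y τ := by
    simp [norm_smul, hv, abs_of_pos hτ]
  have := (convex_closedBall y τ).norm_image_sub_le_of_norm_hasFDerivWithin_le'
    (fun z hz => (hd z hz).hasFDerivAt.hasFDerivWithinAt) hl h0 hz
  rw [add_sub_cancel_left, map_smul, norm_smul, hv, Real.norm_of_nonneg hτ.le, mul_one] at this
  have a1 := norm_sub_le (h (y + τ • v) - h y) (h (y + τ • v) - h y - τ • fderiv ℝ h y v)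
  rw [sub_sub_cancel, norm_smul, Real.norm_of_nonneg hτ.le] at a1
  have a2 := norm_sub_le (h (y + τ • v)) (h y)
  rw [div_add' _ _ _ hτ.ne', le_div_iff₀ hτ]
  linarith [hb _ hz, hb y h0]

variable [FiniteDimensional ℝ E] {U : Set E}

/-- eventually smooth functions, with uniform bounds for all derivatives -/
structure Bdd {F : Type} [NormedAddCommGroup F] [NormedSpace ℝ F] (f : ℕ → E → F) (U : Set E) :
    Prop where
  cd : ∀ᶠ i in atTop, ContDiffOn ℝ ∞ (f i) U
  bd : ∀ k : ℕ, ∃ C : ℝ, ∀ᶠ i in atTop, ∀ x ∈ U, ‖iteratedFDeriv ℝ k (f i) x‖ ≤ C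

omit [FiniteDimensional ℝ E] in
lemma Bdd.fderiv {F : Type} [NormedAddCommGroup F] [NormedSpace ℝ F] {f : ℕ → E → F}
    (hU : IsOpen U) (h : Bdd f U) : Bdd (fun i => fderiv ℝ (f i)) U :=
  ⟨h.cd.mono fun _ hi => hi.fderiv_of_isOpen hU le_rfl, fun k => by
    simpa only [norm_iteratedFDeriv_fderiv] using h.bd (k + 1)⟩

lemma step {F : Type} [NormedAddCommGroup F] [NormedSpace ℝ F] [CompleteSpace F] {f : ℕ → E → F}
    {g : E → F} (hU : IsOpen U) (h : Bdd f U) (ht : TendstoLocallyUniformlyOn f g atTop U) :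
    (∀ x ∈ U, DifferentiableAt ℝ g x) ∧
      TendstoLocallyUniformlyOn (fun i => fderiv ℝ (f i)) (fderiv ℝ g) atTop U := by
  have := FiniteDimensional.proper_real E
  obtain ⟨C, hC⟩ := h.bd 2
  have hd : ∀ᶠ i in atTop, ∀ z ∈ U, DifferentiableAt ℝ (f i) z ∧
      DifferentiableAt ℝ (fderiv ℝ (f i)) z := (h.cd.and (h.fderiv hU).cd).mono fun i hi z hz =>
    ⟨(hi.1.contDiffAt (hU.mem_nhds hz)).differentiableAt (by simp),
      (hi.2.contDiffAt (hU.mem_nhds hz)).differentiableAt (by simp)⟩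
  have key : ∀ x ∈ U, ∃ r > 0, ball x r ⊆ U ∧
      UniformCauchySeqOn (fun i => fderiv ℝ (f i)) atTop (ball x r) := fun x hx => by
    obtain ⟨r, hr, hs⟩ := nhds_basis_closedBall.mem_iff.1 (hU.mem_nhds hx)
    refine ⟨r / 2, by positivity, (ball_subset_closedBall.trans
      (closedBall_subset_closedBall (by linarith))).trans hs, ?_⟩
    have hu := ((tendstoLocallyUniformlyOn_iff_forall_isCompact hU).1 ht _ hs
      (isCompact_closedBall x r)).uniformCauchySeqOn
    rw [Metric.uniformCauchySeqOn_iff] at hu ⊢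
    intro ε hε
    have hc : 0 < 2 * |C| + 1 := by positivity
    set τ := min (r / 2) (ε / 3 / (2 * |C| + 1)) with hτ
    have hτ0 : 0 < τ := by positivity
    have hτ1 : τ * (2 * |C| + 1) ≤ ε / 3 := (le_div_iff₀ hc).1 (min_le_right _ _)
    obtain ⟨N, hN⟩ := hu (ε / 6 * τ) (by positivity)
    obtain ⟨N', hN'⟩ := eventually_atTop.1 (hd.and hC)
    refine ⟨max N N', fun m hm n hn y hy => ?_⟩
    have hsub : closedBall y τ ⊆ closedBall x r := closedBall_subset_closedBall' (by
      linarith [min_le_left (r / 2) (ε / 3 / (2 * |C| + 1)), mem_ball.1 hy])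
    have h0 := mem_closedBall_self (x := y) hτ0.le
    have lip : ∀ i ≥ N', ∀ z ∈ closedBall y τ, ‖fderiv ℝ (f i) z - fderiv ℝ (f i) y‖ ≤ |C| * τ :=
      fun i hi z hz => ((convex_closedBall y τ).norm_image_sub_le_of_norm_fderiv_le (C := |C|)
        (fun z hz => ((hN' i hi).1 z (hs (hsub hz))).2) (fun z hz => by
          rw [← norm_iteratedFDeriv_one, norm_iteratedFDeriv_fderiv]
          exact ((hN' i hi).2 z (hs (hsub hz))).trans (le_abs_self C)) h0 hz).trans
        (mul_le_mul_of_nonneg_left (mem_closedBall_iff_norm.1 hz) (abs_nonneg C))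
    have hm' := le_of_max_le_right hm
    have hn' := le_of_max_le_right hn
    have e : ∀ z ∈ closedBall y τ, fderiv ℝ (f m - f n) z = fderiv ℝ (f m) z - fderiv ℝ (f n) z :=
      fun z hz => fderiv_sub ((hN' m hm').1 z (hs (hsub hz))).1 ((hN' n hn').1 z (hs (hsub hz))).1
    have := interp (h := f m - f n) (C := 2 * |C|) (ε := ε / 6 * τ) hτ0
      (fun z hz => ((hN' m hm').1 z (hs (hsub hz))).1.sub ((hN' n hn').1 z (hs (hsub hz))).1)
      (fun z hz => by
        rw [e z hz, e y h0, sub_sub_sub_comm]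
        linarith [norm_sub_le (fderiv ℝ (f m) z - fderiv ℝ (f m) y)
          (fderiv ℝ (f n) z - fderiv ℝ (f n) y), lip m hm' z hz, lip n hn' z hz])
      (fun z hz => by
        have := hN m (le_of_max_le_left hm) n (le_of_max_le_left hn) z (hsub hz)
        rw [dist_eq_norm] at this
        exact this.le)
    rw [e y h0, show 2 * (ε / 6 * τ) / τ = ε / 3 by field_simp; ring] at this
    rw [dist_eq_norm]
    linarith
  set g' : E → E →L[ℝ] F := fun y => limUnder atTop fun i => fderiv ℝ (f i) y with hg'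
  have key2 : ∀ x ∈ U, ∃ r > 0, ball x r ⊆ U ∧
      TendstoUniformlyOn (fun i => fderiv ℝ (f i)) g' atTop (ball x r) := fun x hx => by
    obtain ⟨r, hr, hs, hc⟩ := key x hx
    exact ⟨r, hr, hs, hc.tendstoUniformlyOn_of_tendsto fun y hy =>
      (hc.cauchySeq hy).tendsto_limUnder⟩
  have hg : ∀ x ∈ U, HasFDerivAt g (g' x) x := fun x hx => by
    obtain ⟨r, hr, hs, hc⟩ := key2 x hx
    refine hasFDerivAt_of_tendstoUniformlyOnFilter (l := atTop) (f := f)
      (f' := fun i => fderiv ℝ (f i)) ((tendstoUniformlyOn_iff_tendstoUniformlyOnFilter.1 hc).mono_right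
        (le_principal_iff.2 (ball_mem_nhds x hr))) ?_
      (eventually_of_mem (hU.mem_nhds hx) fun y hy => ht.tendsto_at hy)
    exact (hd.prod_mk (hU.mem_nhds hx)).mono fun n hn => (hn.1 _ hn.2).1.hasFDerivAt
  refine ⟨fun x hx => (hg x hx).differentiableAt, ?_⟩
  refine TendstoLocallyUniformlyOn.congr_right (f := g') ?_ fun x hx => (hg x hx).fderiv.symm
  refine tendstoLocallyUniformlyOn_of_forall_exists_nhds fun x hx => ?_
  obtain ⟨r, hr, -, hc⟩ := key2 x hx
  exact ⟨_, mem_nhdsWithin_of_mem_nhds (ball_mem_nhds x hr), hc⟩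

lemma jets_aux (hU : IsOpen U) (k : ℕ) : ∀ {F : Type} [NormedAddCommGroup F] [NormedSpace ℝ F]
    [CompleteSpace F] {f : ℕ → E → F} {g : E → F}, Bdd f U →
    TendstoLocallyUniformlyOn f g atTop U → ContDiffOn ℝ k g U ∧
      TendstoLocallyUniformlyOn (fun i => iteratedFDeriv ℝ k (f i)) (iteratedFDeriv ℝ k g)
        atTop U := by
  induction k with
  | zero =>
    intro F _ _ _ f g h ht
    refine ⟨contDiffOn_zero.2 fun x hx =>
      ((step hU h ht).1 x hx).continuousAt.continuousWithinAt, ?_⟩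
    exact (continuousMultilinearCurryFin0 ℝ E F).symm.isometry.uniformContinuous.comp_tendstoLocallyUniformlyOn ht
  | succ k ih =>
    intro F _ _ _ f g h ht
    obtain ⟨h1, h2⟩ := step hU h ht
    obtain ⟨h3, h4⟩ := ih (h.fderiv hU) h2
    refine ⟨?_, ?_⟩
    · push_cast
      exact (contDiffOn_succ_iff_fderiv_of_isOpen hU).2
        ⟨fun x hx => (h1 x hx).differentiableWithinAt, by simp, h3⟩
    · have e : ∀ u : E → F, iteratedFDeriv ℝ (k + 1) u =
          (continuousMultilinearCurryRightEquiv' ℝ k E F).symm ∘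
            iteratedFDeriv ℝ k (fderiv ℝ u) := fun u => funext fun x =>
        iteratedFDeriv_succ_eq_comp_right
      simp only [e]
      exact (continuousMultilinearCurryRightEquiv' ℝ k E F).symm.isometry.uniformContinuous.comp_tendstoLocallyUniformlyOn h4

/-- **Limits of jets.** -/
theorem jets {F : Type} [NormedAddCommGroup F] [NormedSpace ℝ F] [CompleteSpace F]
    {f : ℕ → E → F} {g : E → F} (hU : IsOpen U) (hc : Convex ℝ U) (h : Bdd f U)
    (ht : ∀ x ∈ U, Tendsto (fun i => f i x) atTop (𝓝 (g x))) : ContDiffOn ℝ ∞ g U ∧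
      ∀ (k : ℕ) (K : Set E), K ⊆ U → IsCompact K →
        TendstoUniformlyOn (fun i => iteratedFDeriv ℝ k (f i)) (iteratedFDeriv ℝ k g) atTop K := by
  obtain ⟨C, hC⟩ := h.bd 1
  have h1 : TendstoLocallyUniformlyOn f g atTop U := tlu_of_lip (C := C) ((h.cd.and hC).mono
    fun i hi x hx y hy => by
      rw [dist_eq_norm, dist_eq_norm]
      exact hc.norm_image_sub_le_of_norm_fderiv_le (𝕜 := ℝ)
        (fun z hz => (hi.1.contDiffAt (hU.mem_nhds hz)).differentiableAt (by simp))
        (fun z hz => by rw [← norm_iteratedFDeriv_one]; exact hi.2 z hz) hy hx) ht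
  exact ⟨contDiffOn_infty.2 fun k => (jets_aux hU k h h1).1, fun k =>
    (tendstoLocallyUniformlyOn_iff_forall_isCompact hU).1 (jets_aux hU k h h1).2⟩

end Vale.Agent.P218US
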