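import Vale.Agent.P218US.Sign
import Vale.Agent.P218UD.Unif

/-! The smooth limit of the rescaled flows. -/

open MeasureTheory Set Filter Topology Metric
open scoped ENNReal NNReal RealInnerProductSpace ContDiff

namespace Vale.Agent.P218US

open Vale.Agent.P218UA Vale.Agent.P218UG
open Vale.Agent.P218 (WeakTendsto)
open Vale.Agent.P218.H63 (lap hessSq)

/-- a cutoff function -/
noncomputable def cut (z : E3) (a b : ℝ) (x : E3) : ℝ := min 1 (tent z b x / (b - a))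

lemma continuous_cut (z : E3) (a b : ℝ) : Continuous (cut z a b) :=
  continuous_const.min ((continuous_tent z b).div_const _)

lemma cut_zero {z x : E3} {a b : ℝ} (hx : x ∉ ball z b) : cut z a b x = 0 := by
  rw [← support_tent, Function.mem_support, not_not] at hx
  simp [cut, hx]

lemma compact_cut (z : E3) (a b : ℝ) : HasCompactSupport (cut z a b) :=
  HasCompactSupport.intro (isCompact_closedBall z b) fun _ hx =>
    cut_zero fun h => hx (ball_subset_closedBall h)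

lemma sandwich {μ : Measure E3} [IsLocallyFiniteMeasure μ] {g : E3 → ℝ} (hg : Continuous g)
    (h0 : ∀ x, 0 ≤ g x) (z : E3) {a b : ℝ} (hab : a < b) :
    ∫ x in ball z a, g x ∂μ ≤ ∫ x, cut z a b x * g x ∂μ ∧
      ∫ x, cut z a b x * g x ∂μ ≤ ∫ x in ball z b, g x ∂μ := by
  have hi : ∀ r, Integrable ((ball z r).indicator g) μ := fun r =>
    ((hg.continuousOn.integrableOn_compact (isCompact_closedBall z r)).mono_set
      ball_subset_closedBall).integrable_indicator measurableSet_ball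
  have hc : Integrable (fun x => cut z a b x * g x) μ :=
    ((continuous_cut z a b).mul hg).integrable_of_hasCompactSupport (compact_cut z a b).mul_right
  have c0 : ∀ x, 0 ≤ cut z a b x := fun x =>
    le_min zero_le_one (div_nonneg (tent_nonneg _ _ _) (sub_pos.2 hab).le)
  rw [← integral_indicator measurableSet_ball, ← integral_indicator measurableSet_ball]
  refine ⟨integral_mono (hi a) hc fun x => indicator_apply_le' (fun hx => ?_)
    fun _ => mul_nonneg (c0 x) (h0 x), integral_mono hc (hi b) fun x => ?_⟩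
  · rw [cut, min_eq_left, one_mul]
    rw [le_div_iff₀ (sub_pos.2 hab)]
    exact le_max_of_le_left (by linarith [mem_ball_iff_norm.1 hx])
  · by_cases hx : x ∈ ball z b
    · rw [indicator_of_mem hx]
      exact mul_le_of_le_one_left (h0 x) (min_le_left _ _)
    · simp [hx, cut_zero hx]

theorem lgb_lim {f : ℕ → E3 → ℝ} {W : E3 → ℝ} {C : ℝ} (hC : 0 ≤ C)
    (hf : ∀ᶠ i in atTop, IsSurf (f i) ∧ LGB (f i) C) (hW : IsSurf W)
    (hc : SmoothConv (fun i => {x | f i x = 0}) {x | W x = 0}) : LGB W C := by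
  intro z r hr
  have hf' := hf.mono fun _ h => h.1
  have h0 : ∀ w, IsSurf w → ∀ x, 0 ≤ hessSq w x := fun w hw x =>
    (sq_nonneg _).trans (P218UF.norm_hs_sq_le (surf_cd2 hw) x)
  have := locFin hW
  have key : ∀ r' < r, ∫ x in ball z r', hessSq W x ∂ar W ≤
      C * (1 + ∫ x in ball z (2 * r), lap W x ^ 2 ∂ar W) := fun r' hr' => by
    obtain ⟨m, m1, m2⟩ := exists_between (max_lt hr' hr)
    have a1 := (le_max_left _ _).trans_lt m1
    have a2 := (le_max_right _ _).trans_lt m1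
    refine (sandwich (geo_hess.cont W hW) (h0 W hW) z a1).1.trans (le_trans
      (le_of_tendsto_of_tendsto (conv hf' hW hc geo_hess (continuous_cut z r' m)
        (compact_cut _ _ _)) (((conv hf' hW hc geo_lap (continuous_cut z (2 * m) (2 * r))
          (compact_cut _ _ _)).const_add 1).const_mul C) (hf.mono fun i hi => ?_)) ?_)
    · have := locFin hi.1
      refine (sandwich (geo_hess.cont _ hi.1) (h0 _ hi.1) z a1).2.trans ((hi.2 z m a2).trans ?_)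
      exact mul_le_mul_of_nonneg_left (add_le_add_right
        (sandwich (geo_lap.cont _ hi.1) (fun _ => sq_nonneg _) z (by linarith)).1 _) hC
    · gcongr
      exact (sandwich (geo_lap.cont _ hW) (fun _ => sq_nonneg _) z (by linarith)).2
  obtain ⟨ρ, h1, h2, h3⟩ := exists_seq_strictMono_tendsto r
  have e : ⋃ n, ball z (ρ n) = ball z r := by
    ext x
    simp only [mem_iUnion, mem_ball]
    exact ⟨fun ⟨n, h⟩ => h.trans (h2 n), fun h => (h3.eventually (lt_mem_nhds h)).exists⟩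
  have := tendsto_setIntegral_of_monotone (μ := ar W) (f := hessSq W) (s := fun n => ball z (ρ n))
    (fun _ => measurableSet_ball) (fun a b h => ball_subset_ball (h1.monotone h))
    (e ▸ ((geo_hess.cont W hW).continuousOn.integrableOn_compact
      (isCompact_closedBall z r)).mono_set ball_subset_closedBall)
  rw [e] at this
  exact le_of_tendsto' this fun n => key _ (h2 n)

/-- a graphical piece of the flow with bounds for all derivatives -/
structure Gr (w : ℝ → E3 → ℝ) (Q : E3 ≃ₗᵢ[ℝ] E3) (p : E3) (ρ : ℝ) (B : ℕ → ℝ)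
    (u : ℝ → E2 → ℝ) : Prop where
  graph : ∀ t ∈ Icc (-1 - ρ ^ 2 / 16) (-1), IsGraph {x | w t x = 0} Q p (3 * ρ) (4 * ρ) (u t)
  cd : ∀ t ∈ Icc (-1 - ρ ^ 2 / 16) (-1), ContDiffOn ℝ ∞ (u t) (ball 0 (3 * ρ))
  eqn : ∀ t ∈ Icc (-1 - ρ ^ 2 / 16) (-1), HasDerivAt (fun s => u s 0) (gmc (u t) 0) t
  ht : ∀ t ∈ Icc (-1 - ρ ^ 2 / 16) (-1), ∀ ξ ∈ ball (0 : E2) (3 * ρ), |u t ξ| ≤ 2 * ρ
  bd : ∀ t ∈ Icc (-1 - ρ ^ 2 / 16) (-1), ∀ k, ∀ ξ ∈ ball (0 : E2) (3 * ρ),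
    ‖iteratedFDeriv ℝ k (u t) ξ‖ ≤ B k

lemma gradient_shift (u : E2 → ℝ) (a : E2) (c : ℝ) :
    gradient (fun ξ => u (a + ξ) - c) = fun ξ => gradient u (a + ξ) := by
  ext1 ξ
  rw [gradient, gradient, fderiv_sub_const, fderiv_comp_add_left]

lemma gr_of_sheet (hD : HDStmt) {ρ : ℝ} (hρ : 0 < ρ) : ∃ B : ℕ → ℝ, ∀ w I, IsFlow w I →
    Icc (-1 - ρ ^ 2 / 8) (-1 + ρ ^ 2 / 8) ⊆ I → ∀ Q p p', ‖p' - p‖ ≤ ρ →
    SheetOn w (Icc (-1 - ρ ^ 2 / 8) (-1 + ρ ^ 2 / 8)) Q p' (5 * ρ) ρ 1 →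
    (∀ ξ s, ‖ξ‖ < 3 * ρ → |s| < 4 * ρ → w (-1) (pt Q p ξ s) ≠ 0) ∨ ∃ u, Gr w Q p ρ B u := by
  choose! C hC using hD 1
  refine ⟨fun k => if k = 0 then 2 * ρ else if k = 1 then 1 else C k / (ρ / 4) ^ (k - 1),
    fun w I hw hI Q p p' hp h => ?_⟩
  obtain ⟨a, c, rfl⟩ : ∃ a c, p = pt Q p' a c := ⟨_, _, (pt_hor Q p' p).symm⟩
  rw [norm_sub_rev, pt_eq, add_sub_cancel_left] at hp
  have ha : ‖a‖ ≤ ρ := (fst_le_norm_lin (Q := Q) (a, c)).trans hp
  have hc : |c| ≤ ρ := (snd_le_norm_lin (Q := Q) (a, c)).trans hp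
  have e : ∀ ξ s, pt Q (pt Q p' a c) ξ s = pt Q p' (a + ξ) (c + s) := fun ξ s => by
    rw [pt_eq, pt_eq, pt_eq, add_assoc, ← map_add]; rfl
  have hρ2 : 0 < ρ ^ 2 := by positivity
  have n1 : ∀ ξ : E2, ‖ξ‖ < 4 * ρ → ‖a + ξ‖ < 5 * ρ := fun ξ h => by linarith [norm_add_le a ξ]
  have n2 : ∀ s : ℝ, |s| < 4 * ρ → |c + s| < 5 * ρ := fun s h => by linarith [abs_add_le c s]
  rcases h with h | ⟨u, h⟩
  · exact Or.inl fun ξ s h1 h2 => e ξ s ▸ h _ ⟨by linarith, by linarith⟩ _ _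
      (n1 ξ (by linarith)) (n2 s h2)
  set v : ℝ → E2 → ℝ := fun t ξ => u t (a + ξ) - c with hv
  have hm : ∀ t ξ, ContDiffAt ℝ ∞ (fun q : ℝ × E2 => (q.1, a + q.2)) (t, ξ) := fun t ξ => by
    fun_prop
  have key : ∀ t ∈ Icc (-1 - ρ ^ 2 / 8) (-1 + ρ ^ 2 / 8), ∀ ξ : E2, ‖ξ‖ < 4 * ρ →
      (ContDiffAt ℝ ∞ (fun q : ℝ × E2 => v q.1 q.2) (t, ξ) ∧
      deriv (fun s => v s ξ) t = gmc (v t) ξ ∧ ‖gradient (v t) ξ‖ ≤ 1 ∧
      ‖fderiv ℝ (gradient (v t)) ξ‖ ≤ 1 / (ρ / 4)) ∧ |v t ξ| ≤ 2 * ρ := fun t ht ξ hξ => by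
    obtain ⟨b1, b2, b3, b4, b5⟩ := (h t ht).2 _ (n1 ξ hξ)
    have b6 : ContDiffAt ℝ ∞ (fun q : ℝ × E2 => v q.1 q.2) (t, ξ) :=
      (ContDiffAt.comp (t, ξ) (g := fun q : ℝ × E2 => u q.1 q.2) b1 (hm t ξ)).sub contDiffAt_const
    refine ⟨⟨b6, graph_eqn (Q := Q) (p := pt Q p' a c) hw (hI ht) (b6.of_le (by norm_cast)) ?_,
      ?_, ?_⟩, ?_⟩
    · filter_upwards [(hm t ξ).continuousAt.eventually b2] with q hq
      rwa [e, hv, add_sub_cancel]
    · rwa [hv, gradient_shift]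
    · rw [hv, gradient_shift, fderiv_comp_add_left (f := gradient (u t))]
      exact b5.trans (one_div_le_one_div_of_le (by positivity) (by linarith))
    · linarith [abs_sub (u t (a + ξ)) c]
  have sub : ∀ t ∈ Icc (-1 - ρ ^ 2 / 16) (-1 : ℝ), t ∈ Icc (-1 - ρ ^ 2 / 8) (-1 + ρ ^ 2 / 8) :=
    fun t ht => ⟨by linarith [ht.1], by linarith [ht.2]⟩
  have n3 : ∀ ξ ∈ ball (0 : E2) (3 * ρ), ‖ξ‖ < 4 * ρ := fun ξ h => by
    linarith [mem_ball_zero_iff.1 h]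
  refine Or.inr ⟨v, fun t ht ξ hξ => ⟨by linarith [(key t (sub t ht) ξ (by linarith)).2],
    fun s hs => ?_⟩, fun t ht ξ hξ => (ContDiffAt.comp ξ (g := fun q : ℝ × E2 => v q.1 q.2)
      (f := fun ζ : E2 => (t, ζ)) (key t (sub t ht) ξ (n3 ξ hξ)).1.1
        (by fun_prop)).contDiffWithinAt, fun t ht => ?_,
    fun t ht ξ hξ => (key t (sub t ht) ξ (n3 ξ hξ)).2, fun t ht k ξ hξ => ?_⟩
  · rw [e, ((h t (sub t ht)).1 _ (n1 ξ (by linarith))).2 _ (n2 s hs), hv, eq_sub_iff_add_eq']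
  · obtain ⟨⟨b1, b2, -⟩, -⟩ := key t (sub t ht) 0 (by simpa)
    rw [← b2]
    exact ((ContDiffAt.comp t (g := fun q : ℝ × E2 => v q.1 q.2) (f := fun s : ℝ => (s, 0)) b1
      (by fun_prop)).differentiableAt (by simp)).hasDerivAt
  · obtain ⟨⟨-, -, b1, -⟩, b2⟩ := key t (sub t ht) ξ (n3 ξ hξ)
    split_ifs with k0 k1
    · rwa [k0, norm_iteratedFDeriv_zero]
    · rwa [k1, norm_iteratedFDeriv_one, ← norm_grad]
    · refine hC k (by omega) v t (ρ / 4) ξ (by positivity) fun t' ht' ξ' hξ' =>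
        (key t' ⟨by linarith [ht'.1, ht.1], by linarith [ht'.2, ht.2]⟩ ξ' ?_).1
      linarith [norm_sub_norm_le ξ' ξ, mem_closedBall_iff_norm.1 hξ', mem_ball_zero_iff.1 hξ]

variable {w : ℝ → E3 → ℝ} {a A C : ℝ} {s : ℕ → ℝ} {ν : Measure E3}

lemma chart (hT : Tan) (hR : RegPtStmt) (hD : HDStmt) (ha : a < 0) (hw : IsGood w (Ioo a 0) A C)
    (hs : TanSeq w s ν) (hZ : Zset ν = ∅) (p : E3) : ∃ Q ρ B, 0 < ρ ∧ ρ < 1 ∧ ∀ᶠ i in atTop,
      (∀ ξ t, ‖ξ‖ < 3 * ρ → |t| < 4 * ρ → resc w (s i) (-1) (pt Q p ξ t) ≠ 0) ∨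
        ∃ u, Gr (resc w (s i)) Q p ρ B u := by
  obtain ⟨Q, p', ρ, h1, h2, h3, h4, h5⟩ := hR w a A C ha hw s ν hs (-1) (by norm_num) p
    (by simp [hZ]) 1 one_pos
  obtain ⟨B, hB⟩ := gr_of_sheet hD h1
  refine ⟨Q, ρ, B, h1, h2, ?_⟩
  filter_upwards [h5, P218UD.ev_left ha hs (-2)] with i a1 a2
  exact hB _ _ (hT.resc_good w a A C hw _ (hs.pos i)).toIsFlow (fun t ht =>
    ⟨by nlinarith [ht.1], by nlinarith [ht.2]⟩) Q p p' h4 a1

lemma ev_surf (hT : Tan) (ha : a < 0) (hw : IsGood w (Ioo a 0) A C) (hs : TanSeq w s ν) :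
    ∀ᶠ i in atTop, ∀ t ∈ Icc (-2 : ℝ) (-1), IsSurf (resc w (s i) t) ∧ LGB (resc w (s i) t) C := by
  filter_upwards [P218UD.ev_left ha hs (-2)] with i hi t ht
  have h := hT.resc_good w a A C hw _ (hs.pos i)
  have hm : t ∈ Ioo (a / s i ^ 2) 0 := ⟨hi.trans_le ht.1, ht.2.trans_lt (by norm_num)⟩
  exact ⟨flow_slice h.toIsFlow hm, h.lgb t hm⟩

lemma flow_lim (hT : Tan) (ha : a < 0) (hw : IsGood w (Ioo a 0) A C) (hs : TanSeq w s ν)
    {Q : E3 ≃ₗᵢ[ℝ] E3} {p : E3} {ρ : ℝ} {B : ℕ → ℝ} {u : ℕ → ℝ → E2 → ℝ} (hρ : 0 < ρ) (hρ1 : ρ < 1)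
    (hu : ∀ᶠ i in atTop, Gr (resc w (s i)) Q p ρ B (u i)) {φ : ℕ → ℕ} (hφ : StrictMono φ)
    {t : ℕ → ℝ} {t' : ℝ} (ht : ∀ n, t n ∈ Icc (-1 - ρ ^ 2 / 16) (-1)) (ht' : t' ≤ -1)
    (hl : Tendsto t atTop (𝓝 t')) :
    ∃ U, IsGraph (scal ν √(-t')).support Q p (3 * ρ) (4 * ρ) U ∧ ContDiffOn ℝ ∞ U (ball 0 (3 * ρ)) ∧
      ∀ (k : ℕ) (K : Set E2), K ⊆ ball 0 (3 * ρ) → IsCompact K → TendstoUniformlyOn
        (fun n => iteratedFDeriv ℝ k (u (φ n) (t n))) (iteratedFDeriv ℝ k U) atTop K := by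
  have := (P218UD.AR_scal (Real.sqrt_pos.2 (by linarith : 0 < -t'))
    (hT.ratio w a A ha hw.toIsARFlow s ν hs)).locFin
  have hu' := hφ.tendsto_atTop.eventually hu
  exact stat (f := fun n => resc w (s (φ n)) (t n)) (h' := 2 * ρ)
    ((hφ.tendsto_atTop.eventually (ev_surf hT ha hw hs)).mono fun n hn =>
      (hn _ ⟨by nlinarith [(ht n).1], (ht n).2⟩).1)
    (hT.slow w a A ha hw.toIsARFlow _ ν (P218UD.tanSeq_sub hs hφ) t t' (by linarith) hl)
    (by linarith) (hu'.mono fun n hn => ⟨hn.graph _ (ht n), hn.ht _ (ht n)⟩)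
    ⟨hu'.mono fun n hn => hn.cd _ (ht n), fun k => ⟨B k, hu'.mono fun n hn => hn.bd _ (ht n) k⟩⟩

lemma scal_one (ν : Measure E3) : scal ν √(-(-1)) = ν := by simp [scal]

lemma support_scal {c : ℝ} (hc : 0 < c) {x : E3} (hx : x ∈ (scal ν c).support) :
    c⁻¹ • x ∈ ν.support := by
  rw [Measure.mem_support_iff_forall] at hx ⊢
  intro U hU
  have := hx _ ((continuous_const_smul c⁻¹).continuousAt.preimage_mem_nhds hU)
  rw [P218UD.scal_apply hc, ← preimage_comp] at this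
  simpa [Function.comp_def, smul_smul, hc.ne'] using (ENNReal.mul_pos_iff.1 this).2

lemma ev_gr (hs : TanSeq w s ν) {Q : E3 ≃ₗᵢ[ℝ] E3} {p : E3} {ρ : ℝ} {B : ℕ → ℝ} (hρ : 0 < ρ)
    (hp : p ∈ ν.support) (h : ∀ᶠ i in atTop,
      (∀ ξ t, ‖ξ‖ < 3 * ρ → |t| < 4 * ρ → resc w (s i) (-1) (pt Q p ξ t) ≠ 0) ∨
        ∃ u, Gr (resc w (s i)) Q p ρ B u) :
    ∃ u : ℕ → ℝ → E2 → ℝ, ∀ᶠ i in atTop, Gr (resc w (s i)) Q p ρ B (u i) := by
  have := hs.locFin
  refine Eventually.choice ((h.and (hit hs.weak hp hρ)).mono fun i ⟨h1, x, h2, h3⟩ =>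
    h1.resolve_left fun h1 => ?_)
  obtain ⟨ξ, t, rfl, a1, a2⟩ := coord Q p (ξ := 0) (s := 0) (by rwa [pt_zero])
  rw [sub_zero] at a1 a2
  exact h1 ξ t (by linarith) (by linarith) h3

lemma smoothConv (hT : Tan) (hR : RegPtStmt) (hD : HDStmt) (ha : a < 0)
    (hw : IsGood w (Ioo a 0) A C) (hs : TanSeq w s ν) (hZ : Zset ν = ∅) :
    SmoothConv (fun i => {x | resc w (s i) (-1) x = 0}) ν.support := by
  refine ⟨fun p hp => ?_, fun p hp => ?_⟩ <;>
    obtain ⟨Q, ρ, B, h1, h2, h3⟩ := chart hT hR hD ha hw hs hZ p <;>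
    have hm : (-1 : ℝ) ∈ Icc (-1 - ρ ^ 2 / 16) (-1) := ⟨by nlinarith, le_rfl⟩
  · exact away ((ev_surf hT ha hw hs).mono fun i hi => (hi _ ⟨by norm_num, le_rfl⟩).1) hs.weak hp
      (C := B 1) (by positivity) (by positivity) (h3.mono fun i hi => hi.imp_right
        fun ⟨u, hu⟩ => ⟨_, hu.graph _ hm, hu.cd _ hm, hu.bd _ hm 1⟩)
  · obtain ⟨u, hu⟩ := ev_gr hs h1 hp h3
    obtain ⟨U, a1, a2, a3⟩ := flow_lim hT ha hw hs h1 h2 hu strictMono_id (fun _ => hm) le_rfl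
      tendsto_const_nhds
    rw [scal_one] at a1
    have hsub : ball (0 : E2) (2 * ρ) ⊆ ball 0 (3 * ρ) := ball_subset_ball (by linarith)
    exact ⟨Q, 2 * ρ, 4 * ρ, U, fun i => u i (-1), by positivity, by positivity,
      IsGraph.mono a1 (by linarith), a2.mono hsub, hu.mono fun i hi =>
        ⟨IsGraph.mono (hi.graph _ hm) (by linarith), (hi.cd _ hm).mono hsub⟩,
      fun k => (a3 k _ (closedBall_subset_ball (by linarith))
        (isCompact_closedBall 0 (2 * ρ))).mono ball_subset_closedBall⟩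

lemma shrinker (hT : Tan) (hR : RegPtStmt) (hD : HDStmt) (ha : a < 0)
    (hw : IsGood w (Ioo a 0) A C) (hs : TanSeq w s ν) (hZ : Zset ν = ∅) {W : E3 → ℝ}
    (hW : IsSurf W) (hS : {x | W x = 0} = ν.support) {p : E3} (hp : W p = 0) :
    lap W p = ⟪p, gradient W p⟫ / 2 := by
  obtain ⟨Q, ρ, B, h1, h2, h3⟩ := chart hT hR hD ha hw hs hZ p
  have hp' : p ∈ ν.support := hS ▸ hp
  obtain ⟨u, hu⟩ := ev_gr hs h1 hp' h3
  have h0 : (0 : E2) ∈ ball (0 : E2) (3 * ρ) := mem_ball_self (by positivity)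
  have hK : ({0} : Set E2) ⊆ ball 0 (3 * ρ) := singleton_subset_iff.2 h0
  have lim : ∀ τ ∈ Icc 0 (ρ ^ 2 / 16), ∃ b, Tendsto (fun i => u i (-1 - τ) 0) atTop (𝓝 b) ∧
      (∀ b', |b'| < 4 * ρ → pt Q p 0 b' ∈ (scal ν √(-(-1 - τ))).support → b' = b) ∧
      W ((√(1 + τ))⁻¹ • pt Q p 0 b) = 0 := fun τ hτ => by
    obtain ⟨U, a1, -, a3⟩ := flow_lim hT ha hw hs h1 h2 hu strictMono_id (t' := -1 - τ)
      (fun _ => ⟨by linarith [hτ.2], by linarith [hτ.1]⟩) (by linarith [hτ.1]) tendsto_const_nhds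
    have a4 := a1 0 (by simpa)
    refine ⟨U 0, (tu_zero (a3 0 _ hK isCompact_singleton)).tendsto_at rfl,
      fun b' h h' => (a4.2 b' h).1 h', ?_⟩
    have := support_scal (Real.sqrt_pos.2 (by linarith [hτ.1])) ((a4.2 _ a4.1).2 rfl)
    rwa [← hS, show -(-1 - τ) = 1 + τ by ring] at this
  obtain ⟨τ, -, t1, t2⟩ := exists_seq_strictAnti_tendsto' (show 0 < ρ ^ 2 / 16 by positivity)
  choose b b1 _b3 b2 using fun n => lim (τ n) (Ioo_subset_Icc_self (t1 n))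
  obtain ⟨b₀, c1, c2, -⟩ := lim 0 ⟨le_rfl, by positivity⟩
  rw [sub_zero] at c1 c2
  rw [← c2 0 (by simpa) (by rwa [pt_zero, scal_one])] at c1
  obtain ⟨φ, hφ, hφ'⟩ := extraction_forall_of_eventually fun n => hu.and
    ((Metric.tendsto_nhds.1 c1 _ (pow_pos (t1 n).1 2)).and
      (Metric.tendsto_nhds.1 (b1 n) _ (pow_pos (t1 n).1 2)))
  have hI : ∀ n, ∀ t ∈ Icc (-1 - τ n) (-1), t ∈ Icc (-1 - ρ ^ 2 / 16) (-1) := fun n t ht =>
    ⟨by linarith [ht.1, (t1 n).2], ht.2⟩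
  choose t d1 d2 using fun n => exists_hasDerivAt_eq_slope (fun s => u (φ n) s 0)
    (fun t => gmc (u (φ n) t) 0) (show -1 - τ n < -1 by linarith [(t1 n).1])
    (fun t ht => ((hφ' n).1.eqn t (hI n t ht)).continuousAt.continuousWithinAt)
    fun t ht => (hφ' n).1.eqn t (hI n t (Ioo_subset_Icc_self ht))
  obtain ⟨U, a1, a2, a3⟩ := flow_lim hT ha hw hs h1 h2 hu hφ (t' := -1)
    (fun n => hI n _ (Ioo_subset_Icc_self (d1 n))) le_rfl
    (tendsto_of_tendsto_of_tendsto_of_le_of_le (by simpa using t2.const_sub (-1))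
      tendsto_const_nhds (fun n => (d1 n).1.le) fun n => (d1 n).2.le)
  rw [scal_one, ← hS] at a1
  have U0 : U 0 = 0 := (((a1 0 (by simpa)).2 0 (by simpa)).1 (by rwa [pt_zero])).symm
  have e1 : Tendsto (fun n => gmc (u (φ n) (t n)) 0) atTop (𝓝 (gmc U 0)) :=
    (continuous_gj.comp continuous_snd).continuousAt.tendsto.comp
      ((tu_jet fun k => a3 k _ hK isCompact_singleton).tendsto_at rfl)
  have e2 : Tendsto (fun n => (τ n)⁻¹ * b n) atTop (𝓝 (-gmc U 0)) := by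
    have : Tendsto (fun n => (τ n)⁻¹ * b n + gmc (u (φ n) (t n)) 0) atTop (𝓝 0) := by
      refine squeeze_zero_norm (fun n => ?_) (by simpa using t2.const_mul 2)
      have f1 := (hφ' n).2.1
      have f2 := (hφ' n).2.2
      rw [Real.dist_eq] at f1 f2
      rw [d2 n, show -1 - (-1 - τ n) = τ n by ring, ← div_eq_inv_mul, ← add_div, norm_div,
        Real.norm_of_nonneg (t1 n).1.le, div_le_iff₀ (t1 n).1, Real.norm_eq_abs, abs_le]
      constructor <;> nlinarith [abs_lt.1 f1, abs_lt.1 f2]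
    simpa using this.sub e1
  have hd : HasDerivAt (fun x : ℝ => (√(1 + x))⁻¹) (-(1 / 2)) 0 := by
    refine ((((hasDerivAt_id 0).const_add 1).sqrt (by norm_num)).inv (by simp)).congr_deriv ?_
    norm_num
  have t3 : Tendsto τ atTop (𝓝[>] 0) :=
    tendsto_nhdsWithin_iff.2 ⟨t2, Eventually.of_forall fun n => (t1 n).1⟩
  have e3 := hd.tendsto_slope_zero_right.comp t3
  have e4 := hd.continuousAt.tendsto.comp t2
  simp only [add_zero, Real.sqrt_one, inv_one, zero_add, Function.comp_def, smul_eq_mul] at e3 e4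
  have e5 : Tendsto (fun n => (τ n)⁻¹ • ((√(1 + τ n))⁻¹ • pt Q p 0 (b n) - p)) atTop
      (𝓝 (-(1 / 2 : ℝ) • p + (1 * -gmc U 0) • nQ Q)) := by
    refine ((e3.smul_const p).add ((e4.mul e2).smul_const (nQ Q))).congr fun n => ?_
    rw [pt_add, pt_zero]
    module
  have e6 : Tendsto (fun n => (√(1 + τ n))⁻¹ • pt Q p 0 (b n) - p) atTop (𝓝 0) := by
    refine (t2.zero_smul_isBoundedUnder_le e5.norm.isBoundedUnder_le).congr fun n => ?_
    exact smul_inv_smul₀ (t1 n).1.ne' _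
  have e7 := (hasFDerivWithinAt_univ.2 (surf_diff hW p).hasFDerivAt).lim e6
    (Eventually.of_forall fun _ => mem_univ _) e5
  simp only [add_sub_cancel, b2, hp, sub_self, smul_zero] at e7
  have e8 := tendsto_nhds_unique tendsto_const_nhds e7
  obtain ⟨σ, -, g1, g2, -⟩ := graph_geom hW
    ((a2.contDiffAt (isOpen_ball.mem_nhds h0)).of_le (by norm_cast)) (IsGraph.ev a1 h0)
  rw [U0, pt_zero] at g1 g2
  rw [← P218GA.inner_grad, inner_add_right, real_inner_smul_right, real_inner_smul_right,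
    real_inner_comm] at e8
  have g3 : ⟪gradient W p, nQ Q⟫ = σ / √(1 + ‖gradient U 0‖ ^ 2) := by
    rw [g1, real_inner_smul_left, inner_lin_nQ, mul_one]
  rw [g3] at e8
  rw [g2, mul_div_right_comm, neg_div]
  linarith

/-- **The smooth limit.** -/
theorem lim (hT : Tan) (hR : RegPtStmt) (hD : HDStmt) (hS : SDMStmt) : LimStmt := by
  intro w a A C ha hw s ν hs hZ
  have hc := smoothConv hT hR hD ha hw hs hZ
  have hf := (ev_surf hT ha hw hs).mono fun i hi => hi (-1) ⟨by norm_num, le_rfl⟩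
  have hf' := hf.mono fun _ h => h.1
  obtain ⟨W, hW, e⟩ := exists_surf hS hf' Measure.isClosed_support hc
  have hc' := e ▸ hc
  refine ⟨W, ⟨hW, fun x hx => shrinker hT hR hD ha hw hs hZ hW e hx⟩, ?_,
    lgb_lim (zero_le_one.trans hw.one_le') hf hW hc', hc'⟩
  have := locFin hW
  have := hs.locFin
  refine Measure.ext_of_integral_eq_on_compactlySupported fun φ => tendsto_nhds_unique ?_
    (hs.weak φ φ.continuous φ.hasCompactSupport)
  have := conv hf' hW hc' geo_one φ.continuous φ.hasCompactSupport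
  simp only [mul_one] at this
  exact this

end Vale.Agent.P218US
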