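import Vale.Agent.P218US.Stat

/-! A smooth limit of surfaces has a signed distance function. -/

open MeasureTheory Set Filter Topology Metric
open scoped ENNReal NNReal RealInnerProductSpace ContDiff

namespace Vale.Agent.P218US

open Vale.Agent.P218UA Vale.Agent.P218UG

lemma same_sign {X : Type*} [TopologicalSpace X] {s : Set X} (hs : IsPreconnected s) {g : X → ℝ}
    (hg : ContinuousOn g s) (h0 : ∀ x ∈ s, g x ≠ 0) {a b : X} (ha : a ∈ s) (hb : b ∈ s) :
    0 < g a ↔ 0 < g b := by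
  have key : ∀ a ∈ s, ∀ b ∈ s, 0 < g a → 0 < g b := fun a ha b hb h => by
    by_contra hc
    obtain ⟨x, hx, e⟩ := hs.intermediate_value hb ha hg ⟨not_lt.1 hc, h.le⟩
    exact h0 x hx e
  exact ⟨key a ha b hb, key b hb a ha⟩

lemma opp_sign {g : ℝ → ℝ} (hg : Continuous g) {a b c d : ℝ} (ha : a < c) (hb : c < b)
    (hc : g c = 0) (h0 : ∀ s ∈ Icc a b, s ≠ c → g s ≠ 0) (hd : HasDerivAt g d c) (hd0 : d ≠ 0) :
    0 < g a ↔ ¬0 < g b := by
  have h1 : ∀ᶠ y in 𝓝[≠] c, 0 < slope g c y * d :=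
    ((hasDerivAt_iff_tendsto_slope.1 hd).mul_const d).eventually (lt_mem_nhds (mul_self_pos.2 hd0))
  obtain ⟨y, a1, a2⟩ := ((h1.filter_mono (nhdsLT_le_nhdsNE c)).and (Ioo_mem_nhdsLT ha)).exists
  obtain ⟨z, b1, b2⟩ := ((h1.filter_mono (nhdsGT_le_nhdsNE c)).and (Ioo_mem_nhdsGT hb)).exists
  rw [slope_def_field, hc, sub_zero, div_mul_eq_mul_div] at a1 b1
  have a3 : g y * d < 0 := ((div_pos_iff.1 a1).resolve_left fun h =>
    absurd h.2 (sub_neg.2 a2.2).not_gt).1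
  have b3 : 0 < g z * d := (div_pos_iff_of_pos_right (sub_pos.2 b2.1)).1 b1
  rw [same_sign isPreconnected_Ico hg.continuousOn (fun s hs => h0 s ⟨hs.1, hs.2.le.trans hb.le⟩
    hs.2.ne) ⟨le_rfl, ha⟩ ⟨a2.1.le, a2.2⟩, same_sign isPreconnected_Ioc hg.continuousOn
    (fun s hs => h0 s ⟨ha.le.trans hs.1.le, hs.2⟩ hs.1.ne') ⟨hb, le_rfl⟩ ⟨b2.1, b2.2.le⟩]
  rcases hd0.lt_or_gt with h | h
  · exact ⟨fun _ _ => by nlinarith, fun _ => by nlinarith⟩
  · exact ⟨fun _ _ => by nlinarith, fun h' => absurd (by nlinarith) h'⟩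

variable {Q : E3 ≃ₗᵢ[ℝ] E3} {p : E3}

/-- the signs of the defining function above and below a graph -/
lemma sides {w : E3 → ℝ} (hw : IsSurf w) {R h : ℝ} {v : E2 → ℝ}
    (hG : IsGraph {x | w x = 0} Q p R h v) (hv : ContDiffOn ℝ ∞ v (ball 0 R))
    (hb : ∀ ξ ∈ ball (0 : E2) R, |v ξ| < h / 2) {ξ : E2} (hξ : ξ ∈ ball (0 : E2) R) {s : ℝ}
    (hs : |s| < h) : (v ξ < s → (0 < w (pt Q p ξ s) ↔ 0 < w (pt Q p 0 (h / 2)))) ∧
      (s < v ξ → (0 < w (pt Q p ξ s) ↔ ¬0 < w (pt Q p 0 (h / 2)))) := by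
  have hc : Continuous fun z : E2 × ℝ => w (pt Q p z.1 z.2) :=
    hw.smooth.continuous.comp (contDiff_pt (k := 0)).continuous
  have hh : 0 < h := (abs_nonneg _).trans_lt hs
  have h2 : |h / 2| < h := by rw [abs_of_pos (by positivity)]; linarith
  have hz := fun ζ (hζ : ζ ∈ ball (0 : E2) R) => (hG ζ (mem_ball_zero_iff.1 hζ)).2
  have h1 : 0 < w (pt Q p ξ (h / 2)) ↔ 0 < w (pt Q p 0 (h / 2)) :=
    same_sign (convex_ball (0 : E2) R).isPreconnected (g := fun ζ => w (pt Q p ζ (h / 2)))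
      (hc.comp (continuous_id.prodMk continuous_const)).continuousOn
      (fun ζ hζ e => (abs_lt.1 (hb ζ hζ)).2.ne' ((hz ζ hζ _ h2).1 e)) hξ
      (mem_ball_self ((norm_nonneg _).trans_lt (mem_ball_zero_iff.1 hξ)))
  have hc' : Continuous fun s => w (pt Q p ξ s) := hc.comp (continuous_const.prodMk continuous_id)
  have b := abs_lt.1 (hb ξ hξ)
  have hs' := abs_lt.1 hs
  refine ⟨fun h3 => Iff.trans ?_ h1, fun h3 => Iff.trans ?_ h1.not⟩
  · exact same_sign (s := Ioo (v ξ) h) isPreconnected_Ioo hc'.continuousOn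
      (fun t ht e => ht.1.ne' ((hz ξ hξ t (abs_lt.2 ⟨by linarith [ht.1], ht.2⟩)).1 e))
      ⟨h3, hs'.2⟩ ⟨b.2, by linarith⟩
  · obtain ⟨σ, hσ, h4, -⟩ := graph_geom hw
      ((hv.contDiffAt (isOpen_ball.mem_nhds hξ)).of_le (by norm_cast)) (IsGraph.ev hG hξ)
    refine opp_sign hc' h3 b.2 (IsGraph.ev hG hξ).self_of_nhds (fun t ht ht' e => ht'
      ((hz ξ hξ t (abs_lt.2 ⟨by linarith [ht.1], by linarith [ht.2]⟩)).1 e))
      (hasDerivAt_vert hw ξ (v ξ)) ?_
    rw [h4, real_inner_smul_left, inner_lin_nQ, mul_one]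
    exact div_ne_zero (by rcases hσ with rfl | rfl <;> norm_num)
      (Real.sqrt_pos.2 (by positivity)).ne'

theorem exists_surf (hD : SDMStmt) {f : ℕ → E3 → ℝ} (hf : ∀ᶠ i in atTop, IsSurf (f i))
    {S : Set E3} (hS : IsClosed S) (hc : SmoothConv (fun i => {x | f i x = 0}) S) :
    ∃ W, IsSurf W ∧ {x | W x = 0} = S := by
  classical
  have hU : (hyperfilter ℕ : Filter ℕ) ≤ atTop := Nat.hyperfilter_le_atTop
  set P : E3 → Prop := fun x => ∀ᶠ i in hyperfilter ℕ, 0 < f i x with hP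
  set σ : ℝ × E3 → SignType := fun q => if q.2 ∈ S then 0 else if P q.2 then 1 else -1 with hσ
  obtain ⟨w, h1, h2, h3⟩ := hD univ isOpen_univ σ (by
    rintro ⟨t, p⟩ -
    by_cases hp : p ∈ S
    swap
    · obtain ⟨r, hr, h⟩ := hc.away p hp
      refine ⟨fun _ => if P p then 1 else -1, univ ×ˢ (ball p r ∩ Sᶜ),
        isOpen_univ.prod (isOpen_ball.inter hS.isOpen_compl), ⟨trivial, mem_ball_self hr, hp⟩,
        contDiffOn_const, fun q hq => ?_, fun h => by split_ifs at h <;> norm_num at h⟩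
      have e : P q.2 ↔ P p := eventually_congr (hU ((hf.and h).mono fun i hi =>
        same_sign (convex_ball p r).isPreconnected hi.1.smooth.continuous.continuousOn
          (fun x hx => disjoint_left.1 hi.2 hx) hq.2.1 (mem_ball_self hr)))
      simp only [hσ, if_neg hq.2.2, e]
      split_ifs <;> simp
    obtain ⟨Q, R, h, u, v, hR, hh, hG, hu, hv, ht⟩ := hc.near p hp
    have u0 : u 0 = 0 := (((hG 0 (by simpa)).2 0 (by simpa)).1 (by rwa [pt_zero])).symm
    have : ∀ᶠ ξ in 𝓝 (0 : E2), |u ξ| < h / 4 :=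
      (hu.continuousOn.continuousAt (ball_mem_nhds 0 hR)).abs.eventually_lt continuousAt_const
        (by rw [u0, abs_zero]; positivity)
    obtain ⟨R', hR', hb⟩ := Metric.mem_nhds_iff.1 (this.and (ball_mem_nhds 0 hR))
    have hsub : ball (0 : E2) R' ⊆ ball 0 R := fun ξ hξ => (hb hξ).2
    have hsides : ∀ᶠ i in atTop, ∀ ξ ∈ ball (0 : E2) R', ∀ s, |s| < h →
        (v i ξ < s → (0 < f i (pt Q p ξ s) ↔ 0 < f i (pt Q p 0 (h / 2)))) ∧
        (s < v i ξ → (0 < f i (pt Q p ξ s) ↔ ¬0 < f i (pt Q p 0 (h / 2)))) := by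
      filter_upwards [hf, hv, Metric.tendstoUniformlyOn_iff.1 (tu_zero (ht 0)) (h / 4)
        (by positivity)] with i a1 a2 a3 ξ hξ s hs
      refine sides a1 (fun ζ hζ => a2.1 ζ (mem_ball_zero_iff.1 (hsub (mem_ball_zero_iff.2 hζ))))
        (a2.2.mono hsub) (fun ζ hζ => ?_) hξ hs
      have a4 := a3 ζ (hsub hζ)
      rw [Real.dist_eq, abs_sub_comm] at a4
      linarith [abs_sub_abs_le_abs_sub (v i ζ) (u ζ), (hb hζ).1]
    set e : ℝ := if P (pt Q p 0 (h / 2)) then 1 else -1 with he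
    have he0 : e ≠ 0 := by rw [he]; split_ifs <;> norm_num
    set F : E3 → ℝ := fun x => e * (⟪x - p, nQ Q⟫ - u (hor Q (x - p))) with hF
    have hFp : ∀ ξ s, F (pt Q p ξ s) = e * (s - u ξ) := fun ξ s => by
      simp only [hF, inner_pt, hor_pt]
    have hO := isOpen_cyl Q p R' h
    have hp' : p ∈ {x | ∃ ξ s, ‖ξ‖ < R' ∧ |s| < h ∧ x = pt Q p ξ s} :=
      ⟨0, 0, by simpa, by simpa, (pt_zero Q p).symm⟩
    have hFd : ContDiffOn ℝ ∞ F {x | ∃ ξ s, ‖ξ‖ < R' ∧ |s| < h ∧ x = pt Q p ξ s} := by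
      refine contDiffOn_const.mul (((contDiff_id.sub contDiff_const).inner ℝ
        contDiff_const).contDiffOn.sub (hu.comp ((hor Q).contDiff.comp
          (contDiff_id.sub contDiff_const)).contDiffOn ?_))
      rintro _ ⟨ξ, s, a, -, rfl⟩
      exact hsub (mem_ball_zero_iff.2 (by simpa only [Function.comp, id, hor_pt] using a))
    refine ⟨fun q => F q.2, univ ×ˢ _, isOpen_univ.prod hO, ⟨trivial, hp'⟩,
      hFd.comp contDiffOn_snd fun q hq => hq.2, ?_, fun _ h0 => he0 ?_⟩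
    · rintro ⟨t', _⟩ ⟨-, ξ, s, a, b, rfl⟩
      have hξ := mem_ball_zero_iff.2 a
      have hm := (hG ξ (mem_ball_zero_iff.1 (hsub hξ))).2 s b
      have hl := (tu_zero (ht 0)).tendsto_at (hsub hξ)
      simp only [hσ, hFp, hm, sign_mul]
      rcases lt_trichotomy s (u ξ) with c | c | c
      · have e' : P (pt Q p ξ s) ↔ ¬P (pt Q p 0 (h / 2)) := (eventually_congr (hU ((hsides.and
          (hl.eventually (lt_mem_nhds c))).mono fun i hi => (hi.1 ξ hξ s b).2 hi.2))).trans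
          Ultrafilter.eventually_not
        rw [if_neg c.ne, sign_neg (sub_neg.2 c), he]
        by_cases h' : P (pt Q p 0 (h / 2)) <;> simp [h', e']
      · simp [c]
      · have e' : P (pt Q p ξ s) ↔ P (pt Q p 0 (h / 2)) := eventually_congr (hU ((hsides.and
          (hl.eventually (gt_mem_nhds c))).mono fun i hi => (hi.1 ξ hξ s b).1 hi.2))
        rw [if_neg c.ne', sign_pos (sub_pos.2 c), he]
        by_cases h' : P (pt Q p 0 (h / 2)) <;> simp [h', e']
    · have d1 := ((hFd.contDiffAt (hO.mem_nhds hp')).differentiableAt (by simp)).hasFDerivAt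
      have h0' : fderiv ℝ F p = 0 := h0
      rw [h0', ← pt_zero Q p] at d1
      have d2 := HasFDerivAt.comp_hasDerivAt (f := fun s => pt Q p 0 s) 0 d1 (hasDerivAt_pt 0 0)
      have d3 : HasDerivAt (fun s => e * (s - u 0)) (e * 1) 0 :=
        ((hasDerivAt_id 0).sub_const _).const_mul e
      have := d3.unique (d2.congr_of_eventuallyEq (Eventually.of_forall fun s => (hFp 0 s).symm))
      simpa using this)
  refine ⟨w 0, ⟨?_, fun x hx => (Continuous.prodMk_right (0 : ℝ)).continuousAt.eventually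
    (h3 0 trivial x hx)⟩, ?_⟩
  · rw [univ_prod_univ, contDiffOn_univ] at h1
    exact h1.comp (contDiff_const.prodMk contDiff_id)
  · ext x
    rw [mem_ofPred_eq, ← sign_eq_zero_iff, h2 0 trivial x]
    simp only [hσ]
    split_ifs with a b <;> simp [a]

end Vale.Agent.P218US
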