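import Vale.Agent.P218US.Conv
import Mathlib.MeasureTheory.Measure.Support

/-! Graphs with bounded derivatives whose area measures converge. -/

open MeasureTheory Set Filter Topology Metric
open scoped ENNReal NNReal RealInnerProductSpace ContDiff

namespace Vale.Agent.P218US

open Vale.Agent.P218UA Vale.Agent.P218UG
open Vale.Agent.P218 (WeakTendsto)

/-- a tent function -/
noncomputable def tent (p : E3) (r : ℝ) (x : E3) : ℝ := max (r - ‖x - p‖) 0

lemma continuous_tent (p : E3) (r : ℝ) : Continuous (tent p r) := by unfold tent; fun_prop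

lemma support_tent (p : E3) (r : ℝ) : Function.support (tent p r) = ball p r := by
  ext x
  simp [tent, dist_eq_norm]

lemma tent_nonneg (p : E3) (r : ℝ) (x : E3) : 0 ≤ tent p r x := le_max_right _ _

lemma compact_tent (p : E3) (r : ℝ) : HasCompactSupport (tent p r) :=
  HasCompactSupport.of_support_subset_isCompact (isCompact_closedBall p r)
    (support_tent p r ▸ ball_subset_closedBall)

variable {f : ℕ → E3 → ℝ} {ν : Measure E3} {Q : E3 ≃ₗᵢ[ℝ] E3} {p : E3}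

lemma hit [IsLocallyFiniteMeasure ν] (h : WeakTendsto (fun i => ar (f i)) ν) (hp : p ∈ ν.support)
    {δ : ℝ} (hδ : 0 < δ) : ∀ᶠ i in atTop, ∃ x ∈ ball p δ, f i x = 0 := by
  have h0 : 0 < ∫ x, tent p δ x ∂ν := by
    rw [integral_pos_iff_support_of_nonneg (tent_nonneg p δ)
      ((continuous_tent p δ).integrable_of_hasCompactSupport (compact_tent p δ)), support_tent]
    exact (Measure.mem_support_iff_forall p).1 hp _ (ball_mem_nhds p hδ)
  filter_upwards [(h _ (continuous_tent p δ) (compact_tent p δ)).eventually (lt_mem_nhds h0)]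
    with i hi
  by_contra hc
  push Not at hc
  refine hi.ne' (int_zero fun x hx => ?_)
  by_contra h1
  exact hc x (support_tent p δ ▸ Function.mem_support.2 h1) hx

lemma small (hf : ∀ᶠ i in atTop, IsSurf (f i)) (h : WeakTendsto (fun i => ar (f i)) ν) {δ : ℝ}
    (hδ : 0 < δ) (h0 : ν (ball p (2 * δ)) = 0) {c : ℝ≥0∞} (hc : 0 < c) :
    ∀ᶠ i in atTop, ar (f i) (closedBall p δ) < c := by
  obtain ⟨c', h1, h2⟩ : ∃ c' : ℝ, 0 < c' ∧ ENNReal.ofReal c' ≤ c := by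
    obtain ⟨r, a, b⟩ := ENNReal.lt_iff_exists_nnreal_btwn.1 hc
    exact ⟨r, by exact_mod_cast a, by simpa using b.le⟩
  have e : ∫ x, tent p (2 * δ) x ∂ν = 0 := integral_eq_zero_of_ae
    (measure_mono_null (fun x hx => support_tent p (2 * δ) ▸ Function.mem_support.2 hx) h0)
  have := h _ (continuous_tent p (2 * δ)) (compact_tent p (2 * δ))
  rw [e] at this
  filter_upwards [hf, this.eventually (gt_mem_nhds (mul_pos hδ h1))] with i hi h3
  have := locFin hi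
  have h4 := (mul_meas_ge_le_integral_of_nonneg (μ := ar (f i))
    (Eventually.of_forall (tent_nonneg p _))
    ((continuous_tent p (2 * δ)).integrable_of_hasCompactSupport (compact_tent p _)) δ).trans_lt h3
  have h5 : closedBall p δ ⊆ {x | δ ≤ tent p (2 * δ) x} := fun x hx =>
    le_max_of_le_left (show δ ≤ 2 * δ - ‖x - p‖ by linarith [mem_closedBall_iff_norm.1 hx])
  have h6 : ar (f i) {x | δ ≤ tent p (2 * δ) x} ≠ ⊤ := ne_top_of_le_ne_top
    (measure_closedBall_lt_top (x := p) (r := 2 * δ)).ne (measure_mono fun x hx =>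
      ball_subset_closedBall (support_tent p (2 * δ) ▸ Function.mem_support.2 (hδ.trans_le hx).ne'))
  refine (measure_mono h5).trans_lt (lt_of_lt_of_le ?_ h2)
  exact (ENNReal.lt_ofReal_iff_toReal_lt h6).2 (lt_of_mul_lt_mul_left h4 hδ.le)

lemma lip {R C : ℝ} {v : E2 → ℝ} (hv : ContDiffOn ℝ ∞ v (ball 0 R))
    (hC : ∀ ξ ∈ ball (0 : E2) R, ‖iteratedFDeriv ℝ 1 v ξ‖ ≤ C) {ξ ξ' : E2} (hξ : ξ ∈ ball 0 R)
    (hξ' : ξ' ∈ ball 0 R) : |v ξ' - v ξ| ≤ C * ‖ξ' - ξ‖ :=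
  (convex_ball 0 R).norm_image_sub_le_of_norm_fderiv_le (𝕜 := ℝ)
    (fun z hz => (hv.contDiffAt (isOpen_ball.mem_nhds hz)).differentiableAt (by simp))
    (fun z hz => by rw [← norm_iteratedFDeriv_one]; exact hC z hz) hξ hξ'

lemma mass {w : E3 → ℝ} {R h C τ : ℝ} {v : E2 → ℝ} (hG : IsGraph {x | w x = 0} Q p R h v)
    (hv : ContDiffOn ℝ ∞ v (ball 0 R)) (hC : ∀ ξ ∈ ball (0 : E2) R, ‖iteratedFDeriv ℝ 1 v ξ‖ ≤ C)
    {ξ : E2} (hτ : 0 < τ) (hs : ball ξ τ ⊆ ball 0 R) :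
    volume (ball (0 : E2) τ) ≤ ar w (closedBall (pt Q p ξ (v ξ)) ((1 + |C|) * τ)) := by
  have h1 := lintegral_graph (Q := Q) (p := p) isOpen_ball (hv.of_le (by norm_cast))
    measurableSet_ball hs fun _ => 1
  rw [setLIntegral_one] at h1
  refine le_trans ?_ ((measure_mono (s := (fun ξ => pt Q p ξ (v ξ)) '' ball ξ τ) ?_).trans
    (Measure.le_restrict_apply _ _))
  · rw [h1, ← Measure.addHaar_ball_center volume ξ, ← setLIntegral_one]
    refine lintegral_mono fun ζ => ?_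
    rw [one_mul, ENNReal.one_le_ofReal, Real.one_le_sqrt]
    linarith [sq_nonneg ‖gradient v ζ‖]
  · rintro _ ⟨ζ, hζ, rfl⟩
    refine ⟨?_, (IsGraph.ev hG (hs hζ)).self_of_nhds⟩
    rw [mem_closedBall_iff_norm, pt_sub_pt]
    refine (norm_lin_le _).trans ?_
    have a1 := lip hv hC (hs (mem_ball_self hτ)) (hs hζ)
    have a2 := (mem_ball_iff_norm.1 hζ).le
    have a3 : C * ‖ζ - ξ‖ ≤ |C| * τ := mul_le_mul (le_abs_self C) a2 (norm_nonneg _) (abs_nonneg C)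
    linarith

lemma coord (Q : E3 ≃ₗᵢ[ℝ] E3) (p : E3) {ξ : E2} {s δ : ℝ} {x : E3} (hx : x ∈ ball (pt Q p ξ s) δ) :
    ∃ ξ' s', x = pt Q p ξ' s' ∧ ‖ξ' - ξ‖ < δ ∧ |s' - s| < δ := by
  obtain ⟨ξ', s', rfl⟩ : ∃ ξ' s', x = pt Q p ξ' s' := ⟨_, _, (pt_hor Q p x).symm⟩
  rw [mem_ball_iff_norm, pt_sub_pt] at hx
  exact ⟨ξ', s', rfl, (fst_le_norm_lin (Q := Q) (ξ' - ξ, s' - s)).trans_lt hx,
    (snd_le_norm_lin (Q := Q) (ξ' - ξ, s' - s)).trans_lt hx⟩

lemma pt_zero (Q : E3 ≃ₗᵢ[ℝ] E3) (p : E3) : pt Q p 0 0 = p := by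
  rw [pt_eq, Prod.mk_zero_zero, map_zero, add_zero]

/-- **The limit graph is the support of the limit measure.** -/
theorem stat [IsLocallyFiniteMeasure ν] (hf : ∀ᶠ i in atTop, IsSurf (f i))
    (hw : WeakTendsto (fun i => ar (f i)) ν) {R h h' : ℝ} {v : ℕ → E2 → ℝ} (hh : h' < h)
    (hG : ∀ᶠ i in atTop, IsGraph {x | f i x = 0} Q p R h (v i) ∧ ∀ ξ ∈ ball (0 : E2) R, |v i ξ| ≤ h')
    (hB : Bdd v (ball 0 R)) : ∃ u : E2 → ℝ, IsGraph ν.support Q p R h u ∧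
      ContDiffOn ℝ ∞ u (ball 0 R) ∧ ∀ (k : ℕ) (K : Set E2), K ⊆ ball 0 R → IsCompact K →
        TendstoUniformlyOn (fun i => iteratedFDeriv ℝ k (v i)) (iteratedFDeriv ℝ k u) atTop K := by
  obtain ⟨C, hC⟩ := hB.bd 1
  have hc : 0 < 1 + |C| := by positivity
  have c1 : ∀ ξ ∈ ball (0 : E2) R, ∀ s, |s| < h → pt Q p ξ s ∈ ν.support →
      Tendsto (fun i => v i ξ) atTop (𝓝 s) := fun ξ hξ s hs hp => by
    refine Metric.tendsto_nhds.2 fun ε hε => ?_
    have hξ' := mem_ball_zero_iff.1 hξ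
    set δ := min (ε / (1 + |C|)) (min (R - ‖ξ‖) (h - |s|)) with hδ
    have d1 : δ * (1 + |C|) ≤ ε := (le_div_iff₀ hc).1 (min_le_left _ _)
    have d2 : δ ≤ R - ‖ξ‖ := (min_le_right _ _).trans (min_le_left _ _)
    have d3 : δ ≤ h - |s| := (min_le_right _ _).trans (min_le_right _ _)
    filter_upwards [hit hw hp (δ := δ) (lt_min (by positivity) (lt_min (by linarith) (by linarith))),
      hG, hB.cd, hC] with i ⟨x, hx, h0⟩ h1 h2 h3
    obtain ⟨ξ', s', rfl, a1, a2⟩ := coord Q p hx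
    have a3 : ‖ξ'‖ < R := by linarith [norm_sub_norm_le ξ' ξ]
    have a4 := ((h1.1 ξ' a3).2 s' (by linarith [abs_sub_abs_le_abs_sub s' s])).1 h0
    have a5 := lip h2 h3 hξ (mem_ball_zero_iff.2 a3)
    have a6 : C * ‖ξ' - ξ‖ ≤ |C| * δ := mul_le_mul (le_abs_self C) a1.le (norm_nonneg _) (abs_nonneg C)
    rw [← a4, abs_sub_comm] at a5
    rw [Real.dist_eq]
    linarith [abs_sub_le (v i ξ) s' s]
  have c2 : ∀ ξ ∈ ball (0 : E2) R, ∃ a, |a| ≤ h' ∧ pt Q p ξ a ∈ ν.support := fun ξ hξ => by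
    obtain ⟨a, ha, hcl⟩ := isCompact_Icc.exists_mapClusterPt (f := atTop) (u := fun i => v i ξ)
      (le_principal_iff.2 (hG.mono fun i hi => mem_Icc.2 (abs_le.1 (hi.2 ξ hξ))))
    refine ⟨a, abs_le.2 ha, by_contra fun hn => ?_⟩
    obtain ⟨U, hU, h0⟩ := Measure.notMem_support_iff_exists.1 hn
    obtain ⟨r, hr, hU'⟩ := Metric.mem_nhds_iff.1 hU
    have hξ' := mem_ball_zero_iff.1 hξ
    set τ := min (r / 4 / (1 + |C|)) (R - ‖ξ‖) with hτ
    have hτ0 : 0 < τ := lt_min (by positivity) (by linarith)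
    have d1 : τ * (1 + |C|) ≤ r / 4 := (le_div_iff₀ hc).1 (min_le_left _ _)
    have := small hf hw (p := pt Q p ξ a) (δ := r / 2) (by positivity)
      (measure_mono_null (by rwa [mul_div_cancel₀ _ two_ne_zero]) h0)
      (measure_ball_pos volume (0 : E2) hτ0)
    obtain ⟨i, b1, b2, b3, b4, b5⟩ := ((mapClusterPt_iff_frequently.1 hcl _
      (ball_mem_nhds a (by positivity : 0 < r / 4))).and_eventually
        (this.and (hG.and (hB.cd.and hC)))).exists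
    refine b2.not_ge ((mass b3.1 b4 b5 (ξ := ξ) hτ0 (ball_subset_ball' (by
      rw [dist_zero_right]; linarith [min_le_right (r / 4 / (1 + |C|)) (R - ‖ξ‖)]))).trans
      (measure_mono (closedBall_subset_closedBall' ?_)))
    rw [dist_eq_norm, pt_sub_pt]
    have b6 := norm_lin_le (Q := Q) (ξ - ξ, v i ξ - a)
    rw [mem_ball, Real.dist_eq] at b1
    simp only [sub_self, norm_zero, zero_add] at b6 ⊢
    linarith
  choose! u hu1 hu2 using c2
  have c3 : ∀ ξ ∈ ball (0 : E2) R, Tendsto (fun i => v i ξ) atTop (𝓝 (u ξ)) := fun ξ hξ =>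
    c1 ξ hξ _ ((hu1 ξ hξ).trans_lt hh) (hu2 ξ hξ)
  exact ⟨u, fun ξ hξ => ⟨(hu1 ξ (mem_ball_zero_iff.2 hξ)).trans_lt hh, fun s hs =>
    ⟨fun h => tendsto_nhds_unique (c1 ξ (mem_ball_zero_iff.2 hξ) s hs h)
      (c3 ξ (mem_ball_zero_iff.2 hξ)), fun h => h ▸ hu2 ξ (mem_ball_zero_iff.2 hξ)⟩⟩,
    jets isOpen_ball (convex_ball 0 R) hB c3⟩

theorem away (hf : ∀ᶠ i in atTop, IsSurf (f i)) (hw : WeakTendsto (fun i => ar (f i)) ν)
    (hp : p ∉ ν.support) {R h C : ℝ} (hR : 0 < R) (hh : 0 < h)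
    (hG : ∀ᶠ i in atTop, (∀ ξ s, ‖ξ‖ < R → |s| < h → f i (pt Q p ξ s) ≠ 0) ∨
      ∃ v, IsGraph {x | f i x = 0} Q p R h v ∧ ContDiffOn ℝ ∞ v (ball 0 R) ∧
        ∀ ξ ∈ ball (0 : E2) R, ‖iteratedFDeriv ℝ 1 v ξ‖ ≤ C) :
    ∃ r > 0, ∀ᶠ i in atTop, Disjoint (ball p r) {x | f i x = 0} := by
  obtain ⟨U, hU, h0⟩ := Measure.notMem_support_iff_exists.1 hp
  obtain ⟨r, hr, hU'⟩ := Metric.mem_nhds_iff.1 hU
  have hc : 0 < 1 + |C| := by positivity
  set τ := min (r / 4 / (1 + |C|)) (min (R / 2) h) with hτ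
  have hτ0 : 0 < τ := by positivity
  have d1 : τ * (1 + |C|) ≤ r / 4 := (le_div_iff₀ hc).1 (min_le_left _ _)
  have d2 : τ ≤ R / 2 := (min_le_right _ _).trans (min_le_left _ _)
  have d3 : τ ≤ h := (min_le_right _ _).trans (min_le_right _ _)
  refine ⟨τ, hτ0, ?_⟩
  filter_upwards [hG, small hf hw (p := p) (δ := r / 2) (by positivity)
    (measure_mono_null (by rwa [mul_div_cancel₀ _ two_ne_zero]) h0)
    (measure_ball_pos volume (0 : E2) hτ0)] with i h1 h2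
  refine disjoint_left.2 fun x hx h3 => ?_
  obtain ⟨ξ, s, rfl, a1, a2⟩ := coord Q p (ξ := 0) (s := 0) (by rwa [pt_zero])
  rw [sub_zero] at a1 a2
  rcases h1 with h1 | ⟨v, b1, b2, b3⟩
  · exact h1 ξ s (by linarith) (by linarith) h3
  · have e := ((b1 ξ (by linarith)).2 s (by linarith)).1 h3
    refine h2.not_ge ((mass b1 b2 b3 (ξ := ξ) hτ0 (ball_subset_ball' (by
      rw [dist_zero_right]; linarith))).trans (measure_mono (closedBall_subset_closedBall' ?_)))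
    rw [← e]
    nlinarith [mem_ball.1 hx, abs_nonneg C]

end Vale.Agent.P218US
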